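import Mathlib

/-!
P337, univariate criterion: definitions.

For a monic integer polynomial `f` the polynomial `UP.PP` has the property that
`∏ PP(α) < 0` (product over the complex roots of `f`) for suitable parameters iff `f` has a real
root below the threshold `C`.
-/

namespace Vale.Agent.P337

/-- parameters of the criterion -/
structure UP where
  D : ℕ
  C : ℕ
  S : ℕ
  M : ℕ
  kap : ℕ
  a : ℕ
  a' : ℕ
  Z : ℕ
  Th : ℕ
  w0 : ℕ
  rho : ℕ
  q : ℕ

namespace UP

open Polynomial

variable (U : UP) {R : Type} [CommRing R]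

/-- weights -/
def w (k : ℕ) : ℕ := if k = 0 then U.w0 else if U.q = 0 then 0 else U.rho ^ k % U.q

/-- the polynomials whose signs are used -/
noncomputable def y (f : R[X]) (k : ℕ) : R[X] :=
  Polynomial.C (U.S : R) *
    (if k = 0 then Polynomial.C (U.C : R) - X else derivative^[k] f)

/-- Newman type products -/
noncomputable def Pm (g : R[X]) : R[X] := ∏ i ∈ Finset.range (U.M + 1), (g - 2 ^ i) ^ (2 * U.kap)

/-- Newman type products -/
noncomputable def Pp (g : R[X]) : R[X] := ∏ i ∈ Finset.range (U.M + 1), (g + 2 ^ i) ^ (2 * U.kap)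

/-- denominators -/
noncomputable def B (f : R[X]) (k : ℕ) : R[X] :=
  (U.a : R[X]) * U.Pm (U.y f k) + (U.a' : R[X]) * U.Pp (U.y f k)

/-- the isolating polynomial -/
noncomputable def PP (f : R[X]) : R[X] :=
  (∑ k ∈ Finset.range U.D, ((U.Z * U.w k * U.a : ℕ) : R[X]) * U.Pm (U.y f k) *
    ∏ j ∈ Finset.range U.D, if j = k then 1 else U.B f j) -
    (U.Th : R[X]) * ∏ j ∈ Finset.range U.D, U.B f j

theorem y_map {R' : Type} [CommRing R'] (φ : R →+* R') (f : R[X]) (k : ℕ) :
    (U.y f k).map φ = U.y (f.map φ) k := by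
  unfold y
  rw [Polynomial.map_mul, Polynomial.map_C, map_natCast]
  congr 1
  split_ifs
  · rw [Polynomial.map_sub, Polynomial.map_C, Polynomial.map_X, map_natCast]
  · rw [← Polynomial.iterate_derivative_map]

theorem Pm_map {R' : Type} [CommRing R'] (φ : R →+* R') (g : R[X]) :
    (U.Pm g).map φ = U.Pm (g.map φ) := by
  unfold Pm
  rw [Polynomial.map_prod]
  simp

theorem Pp_map {R' : Type} [CommRing R'] (φ : R →+* R') (g : R[X]) :
    (U.Pp g).map φ = U.Pp (g.map φ) := by
  unfold Pp
  rw [Polynomial.map_prod]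
  simp

theorem B_map {R' : Type} [CommRing R'] (φ : R →+* R') (f : R[X]) (k : ℕ) :
    (U.B f k).map φ = U.B (f.map φ) k := by
  unfold B
  rw [Polynomial.map_add, Polynomial.map_mul, Polynomial.map_mul, Polynomial.map_natCast,
    Polynomial.map_natCast, Pm_map, Pp_map, y_map]

theorem PP_map {R' : Type} [CommRing R'] (φ : R →+* R') (f : R[X]) :
    (U.PP f).map φ = U.PP (f.map φ) := by
  unfold PP
  rw [Polynomial.map_sub, Polynomial.map_sum, Polynomial.map_mul, Polynomial.map_prod,
    Polynomial.map_natCast]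
  congr 1
  · apply Finset.sum_congr rfl
    intro k _
    rw [Polynomial.map_mul, Polynomial.map_mul, Polynomial.map_prod, Polynomial.map_natCast,
      Pm_map, y_map]
    congr 1
    apply Finset.prod_congr rfl
    intro j _
    split_ifs
    · rw [Polynomial.map_one]
    · rw [B_map]
  · simp only [B_map]

/-! ### scalar versions -/

/-- Newman type product at a number -/
noncomputable def pm (x : R) : R := ∏ i ∈ Finset.range (U.M + 1), (x - 2 ^ i) ^ (2 * U.kap)

/-- Newman type product at a number -/
noncomputable def pp (x : R) : R := ∏ i ∈ Finset.range (U.M + 1), (x + 2 ^ i) ^ (2 * U.kap)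

theorem eval_Pm (g : R[X]) (x : R) : (U.Pm g).eval x = U.pm (g.eval x) := by
  unfold Pm pm
  rw [Polynomial.eval_prod]
  apply Finset.prod_congr rfl
  intro i _
  simp

theorem eval_Pp (g : R[X]) (x : R) : (U.Pp g).eval x = U.pp (g.eval x) := by
  unfold Pp pp
  rw [Polynomial.eval_prod]
  apply Finset.prod_congr rfl
  intro i _
  simp

theorem eval_B (f : R[X]) (k : ℕ) (x : R) : (U.B f k).eval x =
    (U.a : R) * U.pm ((U.y f k).eval x) + (U.a' : R) * U.pp ((U.y f k).eval x) := by
  unfold B
  rw [Polynomial.eval_add, Polynomial.eval_mul, Polynomial.eval_mul, Polynomial.eval_natCast,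
    Polynomial.eval_natCast, eval_Pm, eval_Pp]

theorem eval_PP (f : R[X]) (x : R) : (U.PP f).eval x =
    (∑ k ∈ Finset.range U.D, ((U.Z * U.w k * U.a : ℕ) : R) * U.pm ((U.y f k).eval x) *
      ∏ j ∈ Finset.range U.D, if j = k then 1 else
        ((U.a : R) * U.pm ((U.y f j).eval x) + (U.a' : R) * U.pp ((U.y f j).eval x))) -
      (U.Th : R) * ∏ j ∈ Finset.range U.D,
        ((U.a : R) * U.pm ((U.y f j).eval x) + (U.a' : R) * U.pp ((U.y f j).eval x)) := by
  unfold PP
  rw [Polynomial.eval_sub, Polynomial.eval_mul, Polynomial.eval_finsetSum, Polynomial.eval_prod,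
    Polynomial.eval_natCast]
  congr 1
  · apply Finset.sum_congr rfl
    intro k _
    rw [Polynomial.eval_mul, Polynomial.eval_mul, Polynomial.eval_natCast, eval_Pm,
      Polynomial.eval_prod]
    congr 1
    apply Finset.prod_congr rfl
    intro j _
    split_ifs
    · rw [Polynomial.eval_one]
    · rw [eval_B]
  · simp only [eval_B]

end UP

/-- bound for the values -/
def thY (D C u : ℕ) : ℕ := (D * (2 * u + 1)) ^ D + C + u

end Vale.Agent.P337
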