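import Mathlib

/-!
P337, univariate criterion: derivatives are bounded in a disc containing the roots.
-/

namespace Vale.Agent.P337

open Polynomial

theorem derBound_mul (g : ℂ[X]) (a : ℂ) (k : ℕ) :
    derivative^[k + 1] ((X - C a) * g) =
      (X - C a) * derivative^[k + 1] g + ((k : ℂ[X]) + 1) * derivative^[k] g := by
  induction k with
  | zero => simp [derivative_mul]; ring
  | succ k ih =>
    rw [Function.iterate_succ_apply', ih, Function.iterate_succ_apply' derivative (k + 1) g,
      Function.iterate_succ_apply' derivative k g]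
    simp only [derivative_add, derivative_mul, derivative_sub, derivative_X, derivative_C,
      derivative_natCast, derivative_one]
    push_cast
    ring

theorem derBound_multiset {u : ℝ} (hu : 0 ≤ u) {z : ℂ} (hz : ‖z‖ ≤ u) (S : Multiset ℂ)
    (hS : ∀ a ∈ S, ‖a‖ ≤ u) (k : ℕ) :
    ‖(derivative^[k] (S.map fun a => X - C a).prod).eval z‖ ≤
      (S.card.descFactorial k : ℝ) * (2 * u + 1) ^ S.card := by
  induction S using Multiset.induction_on generalizing k with
  | empty =>
    cases k with
    | zero => simp
    | succ k => simp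
  | cons a S ih =>
    have hS' : ∀ b ∈ S, ‖b‖ ≤ u := fun b hb => hS b (Multiset.mem_cons_of_mem hb)
    have ha : ‖z - a‖ ≤ 2 * u := by
      calc ‖z - a‖ ≤ ‖z‖ + ‖a‖ := norm_sub_le _ _
        _ ≤ 2 * u := by linarith [hS a (Multiset.mem_cons_self a S)]
    have hM : (1 : ℝ) ≤ 2 * u + 1 := by linarith
    have hM' : 2 * u ≤ 2 * u + 1 := by linarith
    rw [Multiset.map_cons, Multiset.prod_cons, Multiset.card_cons]
    cases k with
    | zero =>
      have h := ih hS' 0
      simp only [Function.iterate_zero, id_eq, Nat.descFactorial_zero, Nat.cast_one, one_mul]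
        at h ⊢
      rw [eval_mul, norm_mul, pow_succ, mul_comm]
      refine mul_le_mul h ?_ (norm_nonneg _) (by positivity)
      simp only [eval_sub, eval_X, eval_C]
      exact ha.trans hM'
    | succ k =>
      have h1 := ih hS' (k + 1)
      have h2 := ih hS' k
      obtain ⟨n, hn⟩ : ∃ n, n = S.card := ⟨_, rfl⟩
      rw [← hn] at h1 h2 ⊢
      obtain ⟨F, hF⟩ : ∃ F, F = n.descFactorial k := ⟨_, rfl⟩
      obtain ⟨A, hA⟩ : ∃ A : ℝ, A = (2 * u + 1) ^ n := ⟨_, rfl⟩
      have hA0 : 0 ≤ A := by rw [hA]; positivity
      rw [Nat.descFactorial_succ, ← hF, ← hA] at h1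
      rw [← hF, ← hA] at h2
      rw [Nat.succ_descFactorial_succ, ← hF, pow_succ, ← hA, derBound_mul, eval_add, eval_mul,
        eval_mul]
      have h3 : ‖eval z (X - C a)‖ ≤ 2 * u + 1 := by
        simp only [eval_sub, eval_X, eval_C]
        exact ha.trans hM'
      have h4 : ‖eval z ((k : ℂ[X]) + 1)‖ ≤ ((k : ℝ) + 1) * (2 * u + 1) := by
        have : eval z ((k : ℂ[X]) + 1) = ((k + 1 : ℕ) : ℂ) := by simp
        rw [this, Complex.norm_natCast]
        push_cast
        have : (0 : ℝ) ≤ (k : ℝ) + 1 := by positivity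
        nlinarith
      have h5 : ((n - k : ℕ) : ℝ) * F + (k + 1) * F ≤ (n + 1) * F := by
        rcases Nat.lt_or_ge n k with h | h
        · have : F = 0 := by rw [hF]; exact Nat.descFactorial_eq_zero_iff_lt.2 h
          simp [this]
        · rw [Nat.cast_sub h]
          linarith
      calc ‖eval z (X - C a) * eval z (derivative^[k + 1] (S.map fun a => X - C a).prod) +
            eval z ((k : ℂ[X]) + 1) * eval z (derivative^[k] (S.map fun a => X - C a).prod)‖
          ≤ ‖eval z (X - C a) * eval z (derivative^[k + 1] (S.map fun a => X - C a).prod)‖ +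
            ‖eval z ((k : ℂ[X]) + 1) * eval z (derivative^[k] (S.map fun a => X - C a).prod)‖ :=
            norm_add_le _ _
        _ = ‖eval z (X - C a)‖ * ‖eval z (derivative^[k + 1] (S.map fun a => X - C a).prod)‖ +
            ‖eval z ((k : ℂ[X]) + 1)‖ *
              ‖eval z (derivative^[k] (S.map fun a => X - C a).prod)‖ := by
            rw [norm_mul, norm_mul]
        _ ≤ (2 * u + 1) * (((n - k) * F : ℕ) * A) + ((k : ℝ) + 1) * (2 * u + 1) * (F * A) := by
            gcongr
        _ = (((n - k : ℕ) : ℝ) * F + (k + 1) * F) * (A * (2 * u + 1)) := by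
            push_cast
            ring
        _ ≤ ((n + 1) * F) * (A * (2 * u + 1)) := by gcongr
        _ = (((n + 1) * F : ℕ) : ℝ) * (A * (2 * u + 1)) := by push_cast; ring

/-- derivatives of a monic polynomial are bounded in a disc containing its roots -/
theorem derivative_bound {f : ℂ[X]} (hf : f.Monic) {D : ℕ} (hD : f.natDegree = D) {u : ℝ}
    (hu : 0 ≤ u) (hr : ∀ z ∈ f.roots, ‖z‖ ≤ u) (k : ℕ) {z : ℂ} (hz : ‖z‖ ≤ u) :
    ‖(derivative^[k] f).eval z‖ ≤ (D * (2 * u + 1)) ^ D := by
  have hsplit : f.Splits := IsAlgClosed.splits f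
  have hcard : f.roots.card = D := by rw [← hD]; exact hsplit.natDegree_eq_card_roots.symm
  have hprod : (f.roots.map fun a => X - C a).prod = f := by
    have := hsplit.eq_prod_roots
    rw [hf.leadingCoeff, C_1, one_mul] at this
    exact this.symm
  have h := derBound_multiset hu hz f.roots hr k
  rw [hprod, hcard] at h
  refine h.trans ?_
  rw [mul_pow]
  refine mul_le_mul_of_nonneg_right ?_ (by positivity)
  have hnat : D.descFactorial k ≤ D ^ D := by
    rcases Nat.lt_or_ge D k with h1 | h1
    · rw [Nat.descFactorial_eq_zero_iff_lt.2 h1]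
      exact Nat.zero_le _
    · rcases Nat.eq_zero_or_pos D with h2 | h2
      · subst h2
        have : k = 0 := by omega
        subst this
        simp
      · exact (Nat.descFactorial_le_pow D k).trans (Nat.pow_le_pow_right h2 h1)
  exact_mod_cast hnat

end Vale.Agent.P337
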