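import Mathlib
import Vale.Agent.Lib.P337.Uni.Defs
import Vale.Agent.Lib.P337.Uni.DerBound

/-!
P337, univariate criterion: size of the isolating polynomial.
-/

namespace Vale.Agent.P337

open Polynomial

private theorem bnd_two_pow (i : ℕ) : ‖((2 : ℂ) ^ i)‖ = 2 ^ i := by
  rw [norm_pow]
  norm_num

private theorem bnd_pm (U : UP) {x : ℂ} {Y : ℝ} (hx : ‖x‖ ≤ Y) :
    ‖U.pm x‖ ≤ (Y + 2 ^ U.M + 1) ^ (2 * U.kap * (U.M + 1)) := by
  unfold UP.pm
  rw [norm_prod]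
  refine (Finset.prod_le_prod (g := fun _ => (Y + 2 ^ U.M + 1) ^ (2 * U.kap))
    (fun i _ => norm_nonneg _) fun i hi => ?_).trans (le_of_eq ?_)
  · rw [norm_pow]
    refine pow_le_pow_left₀ (norm_nonneg _) ?_ _
    refine (norm_sub_le _ _).trans ?_
    rw [bnd_two_pow]
    have h2 : (2 : ℝ) ^ i ≤ 2 ^ U.M :=
      pow_le_pow_right₀ (by norm_num) (by rw [Finset.mem_range] at hi; omega)
    linarith
  · rw [Finset.prod_const, Finset.card_range, ← pow_mul]

private theorem bnd_pp (U : UP) {x : ℂ} {Y : ℝ} (hx : ‖x‖ ≤ Y) :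
    ‖U.pp x‖ ≤ (Y + 2 ^ U.M + 1) ^ (2 * U.kap * (U.M + 1)) := by
  unfold UP.pp
  rw [norm_prod]
  refine (Finset.prod_le_prod (g := fun _ => (Y + 2 ^ U.M + 1) ^ (2 * U.kap))
    (fun i _ => norm_nonneg _) fun i hi => ?_).trans (le_of_eq ?_)
  · rw [norm_pow]
    refine pow_le_pow_left₀ (norm_nonneg _) ?_ _
    refine (norm_add_le _ _).trans ?_
    rw [bnd_two_pow]
    have h2 : (2 : ℝ) ^ i ≤ 2 ^ U.M :=
      pow_le_pow_right₀ (by norm_num) (by rw [Finset.mem_range] at hi; omega)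
    linarith
  · rw [Finset.prod_const, Finset.card_range, ← pow_mul]

private theorem bnd_w (U : UP) (hq : 0 < U.q) (k : ℕ) : U.w k ≤ U.w0 + U.q := by
  unfold UP.w
  by_cases hk : k = 0
  · rw [if_pos hk]
    exact Nat.le_add_right _ _
  · rw [if_neg hk, if_neg hq.ne']
    exact (Nat.mod_lt _ hq).le.trans (Nat.le_add_left _ _)

private theorem bnd_y (U : UP) {f : ℂ[X]} (hf : f.Monic) (hfD : f.natDegree = U.D) {u : ℕ}
    (hu : ∀ z ∈ f.roots, ‖z‖ ≤ u) {z : ℂ} (hz : ‖z‖ ≤ u) (k : ℕ) :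
    ‖(U.y f k).eval z‖ ≤ (U.S : ℝ) * (thY U.D U.C u : ℕ) := by
  unfold UP.y
  rw [eval_mul, eval_C, norm_mul, Complex.norm_natCast]
  refine mul_le_mul_of_nonneg_left ?_ (Nat.cast_nonneg _)
  have hth : ((thY U.D U.C u : ℕ) : ℝ) = (U.D * (2 * u + 1)) ^ U.D + U.C + u := by
    unfold thY
    push_cast
    rfl
  rw [hth]
  by_cases hk : k = 0
  · rw [if_pos hk, eval_sub, eval_C, eval_X]
    refine (norm_sub_le _ _).trans ?_
    rw [Complex.norm_natCast]
    have h1 : (0 : ℝ) ≤ (U.D * (2 * u + 1)) ^ U.D := by positivity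
    linarith
  · rw [if_neg hk]
    refine (derivative_bound hf hfD (Nat.cast_nonneg u) hu k hz).trans ?_
    have h1 : (0 : ℝ) ≤ (U.C : ℝ) + u := by positivity
    linarith

/-- size of the isolating polynomial -/
theorem PP_bound (U : UP) {f : ℂ[X]} (hf : f.Monic) (hfD : f.natDegree = U.D) (hD : 1 ≤ U.D)
    (hq : 0 < U.q) {u : ℕ} (hu : ∀ z ∈ f.roots, ‖z‖ ≤ u) (haa : U.a ≤ U.a') (haa' : U.a' ≤ 2 * U.a) {z : ℂ}
    (hz : ‖z‖ ≤ u) :
    ‖(U.PP f).eval z‖ ≤ (U.D * U.Z * (U.w0 + U.q) * U.a + U.Th) *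
      (3 * U.a * (U.S * thY U.D U.C u + 2 ^ U.M + 1) ^ (2 * U.kap * (U.M + 1)) + 1) ^ (U.D + 1) := by
  set W : ℝ := (U.S * thY U.D U.C u + 2 ^ U.M + 1) ^ (2 * U.kap * (U.M + 1)) with hW
  have hW0 : 0 ≤ W := by positivity
  have hpm : ∀ k, ‖U.pm ((U.y f k).eval z)‖ ≤ W := fun k => bnd_pm U (bnd_y U hf hfD hu hz k)
  have hpp : ∀ k, ‖U.pp ((U.y f k).eval z)‖ ≤ W := fun k => bnd_pp U (bnd_y U hf hfD hu hz k)
  set E : ℝ := 3 * U.a * W + 1 with hE
  have hE1 : 1 ≤ E := by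
    have : (0 : ℝ) ≤ 3 * U.a * W := by positivity
    linarith
  have hE0 : 0 ≤ E := by linarith
  have hB : ∀ j, ‖(U.a : ℂ) * U.pm ((U.y f j).eval z) + (U.a' : ℂ) * U.pp ((U.y f j).eval z)‖ ≤
      E := by
    intro j
    refine (norm_add_le _ _).trans ?_
    rw [norm_mul, norm_mul, Complex.norm_natCast, Complex.norm_natCast]
    have h1 : (U.a : ℝ) * ‖U.pm ((U.y f j).eval z)‖ ≤ U.a * W :=
      mul_le_mul_of_nonneg_left (hpm j) (Nat.cast_nonneg _)
    have h2 : (U.a' : ℝ) * ‖U.pp ((U.y f j).eval z)‖ ≤ U.a' * W :=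
      mul_le_mul_of_nonneg_left (hpp j) (Nat.cast_nonneg _)
    have h3 : (U.a' : ℝ) ≤ 2 * U.a := by exact_mod_cast haa'
    have h4 : (U.a' : ℝ) * W ≤ 2 * U.a * W := mul_le_mul_of_nonneg_right h3 hW0
    rw [hE]
    linarith
  have hprod1 : ∀ k, ‖∏ j ∈ Finset.range U.D, (if j = k then (1 : ℂ) else
      ((U.a : ℂ) * U.pm ((U.y f j).eval z) + (U.a' : ℂ) * U.pp ((U.y f j).eval z)))‖ ≤
      E ^ U.D := by
    intro k
    rw [norm_prod]
    refine (Finset.prod_le_prod (g := fun _ => E) (fun i _ => norm_nonneg _) fun i _ => ?_).trans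
      (le_of_eq ?_)
    · by_cases hik : i = k
      · rw [if_pos hik, norm_one]
        exact hE1
      · rw [if_neg hik]
        exact hB i
    · rw [Finset.prod_const, Finset.card_range]
  have hprod2 : ‖∏ j ∈ Finset.range U.D,
      ((U.a : ℂ) * U.pm ((U.y f j).eval z) + (U.a' : ℂ) * U.pp ((U.y f j).eval z))‖ ≤
      E ^ U.D := by
    rw [norm_prod]
    refine (Finset.prod_le_prod (g := fun _ => E) (fun i _ => norm_nonneg _) fun i _ => hB i).trans
      (le_of_eq ?_)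
    rw [Finset.prod_const, Finset.card_range]
  rw [U.eval_PP]
  refine (norm_sub_le _ _).trans ?_
  have hT2 : ‖(U.Th : ℂ) * ∏ j ∈ Finset.range U.D,
      ((U.a : ℂ) * U.pm ((U.y f j).eval z) + (U.a' : ℂ) * U.pp ((U.y f j).eval z))‖ ≤
      U.Th * E ^ (U.D + 1) := by
    rw [norm_mul, Complex.norm_natCast]
    refine mul_le_mul_of_nonneg_left (hprod2.trans ?_) (Nat.cast_nonneg _)
    exact pow_le_pow_right₀ hE1 (Nat.le_succ _)
  have hT1 : ‖∑ k ∈ Finset.range U.D, ((U.Z * U.w k * U.a : ℕ) : ℂ) * U.pm ((U.y f k).eval z) *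
      ∏ j ∈ Finset.range U.D, (if j = k then (1 : ℂ) else
        ((U.a : ℂ) * U.pm ((U.y f j).eval z) + (U.a' : ℂ) * U.pp ((U.y f j).eval z)))‖ ≤
      (U.D * U.Z * (U.w0 + U.q) * U.a) * E ^ (U.D + 1) := by
    refine (norm_sum_le _ _).trans ?_
    have hk : ∀ k ∈ Finset.range U.D,
        ‖((U.Z * U.w k * U.a : ℕ) : ℂ) * U.pm ((U.y f k).eval z) *
          ∏ j ∈ Finset.range U.D, (if j = k then (1 : ℂ) else
            ((U.a : ℂ) * U.pm ((U.y f j).eval z) + (U.a' : ℂ) * U.pp ((U.y f j).eval z)))‖ ≤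
        (U.Z * (U.w0 + U.q) * U.a) * E ^ (U.D + 1) := by
      intro k _
      rw [norm_mul, norm_mul, Complex.norm_natCast]
      have h1 : (((U.Z * U.w k * U.a : ℕ) : ℝ)) * ‖U.pm ((U.y f k).eval z)‖ ≤
          (U.Z * (U.w0 + U.q) * U.a) * E := by
        have hw : (U.w k : ℝ) ≤ U.w0 + U.q := by exact_mod_cast bnd_w U hq k
        have h2 : (((U.Z * U.w k * U.a : ℕ) : ℝ)) * ‖U.pm ((U.y f k).eval z)‖ ≤
            ((U.Z * U.w k * U.a : ℕ) : ℝ) * W :=
          mul_le_mul_of_nonneg_left (hpm k) (Nat.cast_nonneg _)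
        refine h2.trans ?_
        push_cast
        have h3 : (U.a : ℝ) * W ≤ U.a * E := by
          rcases Nat.eq_zero_or_pos U.a with h0 | h0
          · rw [h0]
            simp
          · refine mul_le_mul_of_nonneg_left ?_ (Nat.cast_nonneg _)
            have h4 : (1 : ℝ) ≤ U.a := by exact_mod_cast h0
            have h5 : 1 * W ≤ U.a * W := mul_le_mul_of_nonneg_right h4 hW0
            rw [hE]
            linarith
        have h6 : (U.Z : ℝ) * U.w k ≤ U.Z * (U.w0 + U.q) :=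
          mul_le_mul_of_nonneg_left hw (Nat.cast_nonneg _)
        calc (U.Z : ℝ) * U.w k * U.a * W = (U.Z * U.w k) * (U.a * W) := by ring
          _ ≤ (U.Z * (U.w0 + U.q)) * (U.a * E) :=
            mul_le_mul h6 h3 (by positivity) (by positivity)
          _ = (U.Z * (U.w0 + U.q) * U.a) * E := by ring
      calc _ ≤ ((U.Z * (U.w0 + U.q) * U.a) * E) * E ^ U.D :=
            mul_le_mul h1 (hprod1 k) (norm_nonneg _) (by positivity)
        _ = (U.Z * (U.w0 + U.q) * U.a) * E ^ (U.D + 1) := by ring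
    refine (Finset.sum_le_sum hk).trans (le_of_eq ?_)
    rw [Finset.sum_const, Finset.card_range, nsmul_eq_mul]
    ring
  rw [add_mul]
  exact add_le_add hT1 hT2

end Vale.Agent.P337
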