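import Mathlib

/-!
P337: determinant of a polynomial in a matrix.
-/

namespace Vale.Agent.P337

open Polynomial

theorem detAeval_card_roots {n : Type} [Fintype n] [DecidableEq n] (M : Matrix n n ℂ) :
    Multiset.card M.charpoly.roots = Fintype.card n := by
  rw [← (IsAlgClosed.splits M.charpoly).natDegree_eq_card_roots, Matrix.charpoly_natDegree_eq_dim]

theorem detAeval_mul {n : Type} [Fintype n] [DecidableEq n] (M : Matrix n n ℂ) {P Q : ℂ[X]}
    (hP : (aeval M P).det = (M.charpoly.roots.map fun z => P.eval z).prod)
    (hQ : (aeval M Q).det = (M.charpoly.roots.map fun z => Q.eval z).prod) :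
    (aeval M (P * Q)).det = (M.charpoly.roots.map fun z => (P * Q).eval z).prod := by
  rw [map_mul, Matrix.det_mul, hP, hQ, ← Multiset.prod_map_mul]
  simp only [eval_mul]

theorem detAeval_C {n : Type} [Fintype n] [DecidableEq n] (M : Matrix n n ℂ) (c : ℂ) :
    (aeval M (C c)).det = (M.charpoly.roots.map fun z => (C c).eval z).prod := by
  simp only [eval_C, Multiset.map_const', Multiset.prod_replicate, detAeval_card_roots]
  rw [aeval_C, Matrix.algebraMap_eq_diagonal, Matrix.det_diagonal]
  simp

theorem detAeval_X_sub_C {n : Type} [Fintype n] [DecidableEq n] (M : Matrix n n ℂ) (b : ℂ) :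
    (aeval M (X - C b)).det = (M.charpoly.roots.map fun z => (X - C b).eval z).prod := by
  have h1 : aeval M (X - C b) = -(Matrix.scalar n b - M) := by
    rw [map_sub, aeval_X, aeval_C, neg_sub]
    rfl
  rw [h1, Matrix.det_neg, ← Matrix.eval_charpoly,
    (IsAlgClosed.splits M.charpoly).eval_eq_prod_roots_of_monic M.charpoly_monic,
    ← detAeval_card_roots M]
  have h2 : ((-1 : ℂ)) ^ Multiset.card M.charpoly.roots =
      (M.charpoly.roots.map fun _ => (-1 : ℂ)).prod := by
    rw [Multiset.map_const', Multiset.prod_replicate]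
  rw [h2, ← Multiset.prod_map_mul]
  congr 1
  apply Multiset.map_congr rfl
  intro z _
  simp

/-- determinant of a polynomial in a matrix -/
theorem det_aeval_eq_prod {n : Type} [Fintype n] [DecidableEq n] (M : Matrix n n ℂ) (P : ℂ[X]) :
    (aeval M P).det = (M.charpoly.roots.map fun z => P.eval z).prod := by
  rw [(IsAlgClosed.splits P).eq_prod_roots]
  refine detAeval_mul M (detAeval_C M _) ?_
  generalize P.roots = s
  induction s using Multiset.induction_on with
  | empty =>
    rw [Multiset.map_zero, Multiset.prod_zero]
    have h := detAeval_C M 1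
    rwa [C_1] at h
  | cons b s ih =>
    rw [Multiset.map_cons, Multiset.prod_cons]
    exact detAeval_mul M (detAeval_X_sub_C M b) ih

end Vale.Agent.P337
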