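import Mathlib
import Vale.Agent.Lib.P337.Uni.Defs

/-!
P337, univariate criterion: degree of the isolating polynomial.
-/

namespace Vale.Agent.P337

open Polynomial

theorem dg_natCast_mul_le {R : Type} [CommRing R] (n : ℕ) (g : R[X]) :
    ((n : R[X]) * g).natDegree ≤ g.natDegree := by
  refine le_trans natDegree_mul_le ?_
  rw [natDegree_natCast, zero_add]

theorem dg_iterate_derivative {R : Type} [CommRing R] (f : R[X]) (k : ℕ) :
    (derivative^[k] f).natDegree ≤ f.natDegree := by
  induction k with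
  | zero => simp
  | succ k ih =>
    rw [Function.iterate_succ_apply']
    exact le_trans (natDegree_derivative_le _) (le_trans (Nat.sub_le _ _) ih)

theorem dg_y (U : UP) {R : Type} [CommRing R] (f : R[X]) (hf : f.natDegree ≤ U.D)
    (hD : 1 ≤ U.D) (k : ℕ) : (U.y f k).natDegree ≤ U.D := by
  unfold UP.y
  refine le_trans natDegree_mul_le ?_
  rw [natDegree_C, zero_add]
  split_ifs
  · refine le_trans (natDegree_sub_le _ _) ?_
    rw [natDegree_C]
    exact max_le (Nat.zero_le _) (le_trans natDegree_X_le hD)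
  · exact le_trans (dg_iterate_derivative f k) hf

theorem dg_prod_pow {R : Type} [CommRing R] (M kap d : ℕ) (g : ℕ → R[X])
    (hg : ∀ i, (g i).natDegree ≤ d) :
    (∏ i ∈ Finset.range (M + 1), (g i) ^ (2 * kap)).natDegree ≤ d * (2 * kap * (M + 1)) := by
  refine le_trans (natDegree_prod_le _ _) ?_
  calc ∑ i ∈ Finset.range (M + 1), ((g i) ^ (2 * kap)).natDegree
      ≤ ∑ _i ∈ Finset.range (M + 1), (2 * kap) * d := by
        refine Finset.sum_le_sum fun i _ => ?_
        exact le_trans natDegree_pow_le (Nat.mul_le_mul le_rfl (hg i))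
    _ = d * (2 * kap * (M + 1)) := by
        rw [Finset.sum_const, Finset.card_range, smul_eq_mul]; ring

theorem dg_two_pow {R : Type} [CommRing R] (i : ℕ) : ((2 : R[X]) ^ i).natDegree = 0 := by
  have h : ((2 : R[X]) ^ i) = (((2 ^ i : ℕ)) : R[X]) := by push_cast; rfl
  rw [h, natDegree_natCast]

theorem dg_Pm (U : UP) {R : Type} [CommRing R] {g : R[X]} (hg : g.natDegree ≤ U.D) :
    (U.Pm g).natDegree ≤ U.D * (2 * U.kap * (U.M + 1)) := by
  unfold UP.Pm
  refine dg_prod_pow U.M U.kap U.D (fun i => g - 2 ^ i) fun i => ?_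
  refine le_trans (natDegree_sub_le _ _) ?_
  rw [dg_two_pow]
  exact max_le hg (Nat.zero_le _)

theorem dg_Pp (U : UP) {R : Type} [CommRing R] {g : R[X]} (hg : g.natDegree ≤ U.D) :
    (U.Pp g).natDegree ≤ U.D * (2 * U.kap * (U.M + 1)) := by
  unfold UP.Pp
  refine dg_prod_pow U.M U.kap U.D (fun i => g + 2 ^ i) fun i => ?_
  refine le_trans (natDegree_add_le _ _) ?_
  rw [dg_two_pow]
  exact max_le hg (Nat.zero_le _)

theorem dg_B (U : UP) {R : Type} [CommRing R] (f : R[X]) (hf : f.natDegree ≤ U.D)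
    (hD : 1 ≤ U.D) (k : ℕ) : (U.B f k).natDegree ≤ U.D * (2 * U.kap * (U.M + 1)) := by
  unfold UP.B
  refine le_trans (natDegree_add_le _ _) (max_le ?_ ?_)
  · exact le_trans (dg_natCast_mul_le _ _) (dg_Pm U (dg_y U f hf hD k))
  · exact le_trans (dg_natCast_mul_le _ _) (dg_Pp U (dg_y U f hf hD k))

theorem dg_prod_ite {R : Type} [CommRing R] (D E k : ℕ) (hk : k ∈ Finset.range D)
    (b : ℕ → R[X]) (hb : ∀ j, (b j).natDegree ≤ E) :
    (∏ j ∈ Finset.range D, if j = k then 1 else b j).natDegree + E ≤ D * E := by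
  rw [← Finset.mul_prod_erase _ _ hk, if_pos rfl, one_mul]
  have h1 : (∏ j ∈ (Finset.range D).erase k, if j = k then 1 else b j).natDegree
      ≤ ((Finset.range D).erase k).card * E := by
    refine le_trans (natDegree_prod_le _ _) ?_
    refine le_trans (Finset.sum_le_card_nsmul _ _ E fun j hj => ?_) (le_of_eq (by simp))
    rw [if_neg (Finset.ne_of_mem_erase hj)]
    exact hb j
  rw [Finset.card_erase_of_mem hk, Finset.card_range] at h1
  have hD : 1 ≤ D := by
    have := Finset.mem_range.1 hk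
    omega
  have h2 : D * E = (D - 1) * E + E := by
    obtain ⟨d, rfl⟩ := Nat.exists_eq_add_of_le' hD
    simp [Nat.add_mul]
  rw [h2]
  exact Nat.add_le_add_right h1 E

/-- degree of the isolating polynomial -/
theorem PP_natDegree_le (U : UP) {R : Type} [CommRing R] (f : R[X]) (hf : f.natDegree ≤ U.D)
    (hD : 1 ≤ U.D) : (U.PP f).natDegree ≤ U.D * (U.D * (2 * U.kap * (U.M + 1))) := by
  unfold UP.PP
  refine le_trans (natDegree_sub_le _ _) (max_le ?_ ?_)
  · refine natDegree_sum_le_of_forall_le _ _ fun k hk => ?_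
    refine le_trans natDegree_mul_le ?_
    have h1 : (((U.Z * U.w k * U.a : ℕ) : R[X]) * U.Pm (U.y f k)).natDegree
        ≤ U.D * (2 * U.kap * (U.M + 1)) :=
      le_trans (dg_natCast_mul_le _ _) (dg_Pm U (dg_y U f hf hD k))
    have h2 := dg_prod_ite U.D (U.D * (2 * U.kap * (U.M + 1))) k hk (U.B f) (dg_B U f hf hD)
    omega
  · refine le_trans (dg_natCast_mul_le _ _) ?_
    refine le_trans (natDegree_prod_le _ _) ?_
    refine le_trans (Finset.sum_le_card_nsmul _ _ _ fun j _ => dg_B U f hf hD j) ?_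
    rw [Finset.card_range, smul_eq_mul]

end Vale.Agent.P337
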