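import Mathlib
import Vale.Agent.Lib.P337.Uni.Defs

/-!
P337, univariate criterion: choice of parameters without zeros at the roots.
-/

namespace Vale.Agent.P337

open Polynomial

/-- pigeonhole: every index excludes at most one number -/
theorem uni_nonzero_pigeon {ι : Type} (s : Finset ι) (bad : ι → ℕ → Prop)
    (hbad : ∀ i ∈ s, ∀ n n', bad i n → bad i n' → n = n') (A N : ℕ) (hN : s.card < N + 1) :
    ∃ n, A ≤ n ∧ n ≤ A + N ∧ ∀ i ∈ s, ¬ bad i n := by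
  classical
  by_contra hcon
  have h1 : ∀ n ∈ Finset.Icc A (A + N), ∃ i ∈ s, bad i n := by
    intro n hn
    by_contra h2
    rw [Finset.mem_Icc] at hn
    refine hcon ⟨n, hn.1, hn.2, fun i hi hb => h2 ⟨i, hi, hb⟩⟩
  have : Nonempty ι := ⟨(h1 A (Finset.mem_Icc.2 ⟨le_rfl, Nat.le_add_right _ _⟩)).choose⟩
  choose! φ hφ1 hφ2 using h1
  have hcard : s.card < (Finset.Icc A (A + N)).card := by
    rw [Nat.card_Icc]
    omega
  obtain ⟨n, hn, n', hn', hne, heq⟩ :=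
    Finset.exists_ne_map_eq_of_card_lt_of_maps_to hcard (f := φ) hφ1
  refine hne (hbad (φ n) (hφ1 n hn) n n' (hφ2 n hn) ?_)
  rw [heq]
  exact hφ2 n' hn'

/-- the two products have no common zero -/
theorem uni_nonzero_pm {M kap : ℕ} {y : ℂ}
    (h : ∏ i ∈ Finset.range (M + 1), (y + 2 ^ i) ^ (2 * kap) = 0) :
    ∏ i ∈ Finset.range (M + 1), (y - 2 ^ i) ^ (2 * kap) ≠ 0 := by
  obtain ⟨i, -, hi⟩ := Finset.prod_eq_zero_iff.1 h
  have hy : y = -2 ^ i := by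
    have hk : 2 * kap ≠ 0 := by
      intro h0
      rw [h0, pow_zero] at hi
      exact one_ne_zero hi
    exact eq_neg_of_add_eq_zero_left ((pow_eq_zero_iff hk).1 hi)
  rw [Finset.prod_ne_zero_iff]
  intro j _
  apply pow_ne_zero
  rw [hy]
  have h1 : (-2 ^ i - 2 ^ j : ℂ) = -(((2 ^ i + 2 ^ j : ℕ)) : ℂ) := by
    push_cast
    ring
  rw [h1, neg_ne_zero, Nat.cast_ne_zero]
  positivity

/-- the parameters `a'`, `Th` can be chosen such that there are no zeros at the complex roots -/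
theorem uni_nonzero {f : ℂ[X]} {D : ℕ} (hfD : f.natDegree = D) (C S M kap a Z w0 rho q T0 : ℕ)
    (ha : 0 < a) (s : Finset ℂ) (hs : s.card ≤ D) :
    ∃ a' Th : ℕ, a ≤ a' ∧ a' ≤ a + D ^ 2 ∧ T0 ≤ Th ∧ Th ≤ T0 + 2 * (D + 2) ∧
      ∀ z ∈ s, (UP.PP ⟨D, C, S, M, kap, a, a', Z, Th, w0, rho, q⟩ f).eval z ≠ 0 := by
  set p0 : ℂ → ℂ := fun y => ∏ i ∈ Finset.range (M + 1), (y - 2 ^ i) ^ (2 * kap) with hp0
  set p1 : ℂ → ℂ := fun y => ∏ i ∈ Finset.range (M + 1), (y + 2 ^ i) ^ (2 * kap) with hp1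
  set Y : ℂ → ℕ → ℂ := fun z k => (Polynomial.C (S : ℂ) *
    (if k = 0 then Polynomial.C (C : ℂ) - X else derivative^[k] f)).eval z with hY
  have haC : (a : ℂ) ≠ 0 := Nat.cast_ne_zero.2 ha.ne'
  -- choice of `a'`
  obtain ⟨a', ha1, ha2, ha3⟩ := uni_nonzero_pigeon (s ×ˢ Finset.range D)
    (fun i n => (a : ℂ) * p0 (Y i.1 i.2) + (n : ℂ) * p1 (Y i.1 i.2) = 0)
    (fun i _ n n' h1 h2 => by
      have h3 : p1 (Y i.1 i.2) ≠ 0 := by
        intro h0
        rw [h0, mul_zero, add_zero] at h1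
        exact (mul_ne_zero haC (uni_nonzero_pm h0)) h1
      have h4 : ((n : ℂ) - n') * p1 (Y i.1 i.2) = 0 := by linear_combination h1 - h2
      have h5 := (mul_eq_zero.1 h4).resolve_right h3
      exact_mod_cast sub_eq_zero.1 h5) a (D ^ 2) (by
      rw [Finset.card_product, Finset.card_range]
      have := Nat.mul_le_mul_right D hs
      rw [← sq] at this
      omega)
  have hB : ∀ z ∈ s, ∏ j ∈ Finset.range D,
      ((a : ℂ) * p0 (Y z j) + (a' : ℂ) * p1 (Y z j)) ≠ 0 := by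
    intro z hz
    rw [Finset.prod_ne_zero_iff]
    intro j hj
    exact ha3 (z, j) (Finset.mem_product.2 ⟨hz, hj⟩)
  -- choice of `Th`
  set W : ℕ → ℕ := fun k => if k = 0 then w0 else if q = 0 then 0 else rho ^ k % q with hW
  obtain ⟨Th, hT1, hT2, hT3⟩ := uni_nonzero_pigeon s
    (fun z n => (∑ k ∈ Finset.range D, ((Z * W k * a : ℕ) : ℂ) * p0 (Y z k) *
      ∏ j ∈ Finset.range D, if j = k then 1 else
        ((a : ℂ) * p0 (Y z j) + (a' : ℂ) * p1 (Y z j))) -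
      (n : ℂ) * ∏ j ∈ Finset.range D, ((a : ℂ) * p0 (Y z j) + (a' : ℂ) * p1 (Y z j)) = 0)
    (fun z hz n n' h1 h2 => by
      have h4 : ((n : ℂ) - n') *
          ∏ j ∈ Finset.range D, ((a : ℂ) * p0 (Y z j) + (a' : ℂ) * p1 (Y z j)) = 0 := by
        linear_combination h2 - h1
      have h5 := (mul_eq_zero.1 h4).resolve_right (hB z hz)
      exact_mod_cast sub_eq_zero.1 h5) T0 (2 * (D + 2)) (by omega)
  refine ⟨a', Th, ha1, ha2, hT1, hT2, fun z hz h0 => hT3 z hz ?_⟩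
  rw [UP.eval_PP] at h0
  exact h0

end Vale.Agent.P337
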