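import Mathlib

/-!
P337, univariate criterion: hashing of sign vectors.
-/

namespace Vale.Agent.P337

open Polynomial in
/-- difference polynomial of two vectors -/
noncomputable def hashPoly (D q : ℕ) (a b : ℕ → ℕ) : Polynomial (ZMod q) :=
  ∑ k ∈ Finset.Ico 1 D, C ((a k : ZMod q) - (b k : ZMod q)) * X ^ k

theorem hashPoly_coeff (D q : ℕ) (a b : ℕ → ℕ) (k : ℕ) (h1 : 1 ≤ k) (h2 : k < D) :
    (hashPoly D q a b).coeff k = (a k : ZMod q) - (b k : ZMod q) := by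
  unfold hashPoly
  rw [Polynomial.finsetSum_coeff]
  rw [Finset.sum_eq_single_of_mem k (Finset.mem_Ico.2 ⟨h1, h2⟩)]
  · rw [Polynomial.coeff_C_mul, Polynomial.coeff_X_pow, if_pos rfl, mul_one]
  · intro l _ hl
    rw [Polynomial.coeff_C_mul, Polynomial.coeff_X_pow, if_neg (Ne.symm hl), mul_zero]

theorem hashPoly_natDegree (D q : ℕ) (a b : ℕ → ℕ) : (hashPoly D q a b).natDegree ≤ D := by
  unfold hashPoly
  refine Polynomial.natDegree_sum_le_of_forall_le _ _ fun k hk => ?_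
  exact (Polynomial.natDegree_C_mul_X_pow_le _ _).trans (Finset.mem_Ico.1 hk).2.le

theorem hashPoly_eval (D q : ℕ) (a b : ℕ → ℕ) (x : ZMod q) :
    (hashPoly D q a b).eval x
      = ∑ k ∈ Finset.Ico 1 D, x ^ k * (a k : ZMod q) - ∑ k ∈ Finset.Ico 1 D, x ^ k * (b k : ZMod q) := by
  unfold hashPoly
  rw [Polynomial.eval_finsetSum, ← Finset.sum_sub_distrib]
  refine Finset.sum_congr rfl fun k _ => ?_
  simp only [Polynomial.eval_mul, Polynomial.eval_C, Polynomial.eval_pow, Polynomial.eval_X]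
  ring

theorem hashPoly_ne_zero {D q : ℕ} (hq2 : 2 < q) (a b : ℕ → ℕ) (ha : ∀ k, a k ≤ 2)
    (hb : ∀ k, b k ≤ 2) (h : ∃ k, 1 ≤ k ∧ k < D ∧ a k ≠ b k) : hashPoly D q a b ≠ 0 := by
  obtain ⟨k, h1, h2, h3⟩ := h
  intro h0
  have h4 := hashPoly_coeff D q a b k h1 h2
  rw [h0, Polynomial.coeff_zero] at h4
  have h5 : (a k : ZMod q) = (b k : ZMod q) := (sub_eq_zero.1 h4.symm)
  rw [ZMod.natCast_eq_natCast_iff'] at h5
  rw [Nat.mod_eq_of_lt (lt_of_le_of_lt (ha k) hq2), Nat.mod_eq_of_lt (lt_of_le_of_lt (hb k) hq2)] at h5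
  exact h3 h5

/-- polynomial hashing modulo a prime separates finitely many vectors with entries `0, 1, 2` -/
theorem exists_hash {D q : ℕ} (hq : q.Prime) (hq2 : 2 < q) {ι : Type} (s : Finset ι)
    (hs : s.card ≤ D) (hqD : D ^ 3 < q) (v : ι → ℕ → ℕ) (hv : ∀ i k, v i k ≤ 2)
    (hne : ∀ i ∈ s, ∀ j ∈ s, i ≠ j → ∃ k, 1 ≤ k ∧ k < D ∧ v i k ≠ v j k) :
    ∃ rho < q, ∀ i ∈ s, ∀ j ∈ s, i ≠ j →
      ∑ k ∈ Finset.Ico 1 D, (rho ^ k % q) * v i k ≠ ∑ k ∈ Finset.Ico 1 D, (rho ^ k % q) * v j k := by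
  classical
  have : Fact q.Prime := ⟨hq⟩
  have : NeZero q := ⟨hq.ne_zero⟩
  let bad : Finset (ZMod q) :=
    s.offDiag.biUnion fun p => (hashPoly D q (v p.1) (v p.2)).roots.toFinset
  have hbad : bad.card ≤ D ^ 3 := by
    have h1 : bad.card ≤ s.offDiag.card * D := by
      refine Finset.card_biUnion_le_card_mul _ _ _ fun p _ => ?_
      exact (Multiset.toFinset_card_le _).trans
        ((Polynomial.card_roots' _).trans (hashPoly_natDegree D q _ _))
    have h2 : s.offDiag.card ≤ D * D := by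
      rw [Finset.offDiag_card]
      exact (Nat.sub_le _ _).trans (Nat.mul_le_mul hs hs)
    calc bad.card ≤ s.offDiag.card * D := h1
      _ ≤ D * D * D := Nat.mul_le_mul_right _ h2
      _ = D ^ 3 := by ring
  have hcard : bad.card < (Finset.univ : Finset (ZMod q)).card := by
    rw [Finset.card_univ, ZMod.card]
    exact lt_of_le_of_lt hbad hqD
  obtain ⟨x, -, hx⟩ := Finset.exists_mem_notMem_of_card_lt_card hcard
  refine ⟨x.val, ZMod.val_lt x, fun i hi j hj hij heq => hx ?_⟩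
  refine Finset.mem_biUnion.2 ⟨(i, j), Finset.mem_offDiag.2 ⟨hi, hj, hij⟩, ?_⟩
  rw [Multiset.mem_toFinset, Polynomial.mem_roots
    (hashPoly_ne_zero hq2 _ _ (hv i) (hv j) (hne i hi j hj hij)), Polynomial.IsRoot.def,
    hashPoly_eval]
  have key : ∀ i : ι, ((∑ k ∈ Finset.Ico 1 D, (x.val ^ k % q) * v i k : ℕ) : ZMod q)
      = ∑ k ∈ Finset.Ico 1 D, x ^ k * (v i k : ZMod q) := by
    intro i
    rw [Nat.cast_sum]
    refine Finset.sum_congr rfl fun k _ => ?_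
    rw [Nat.cast_mul, ZMod.natCast_mod, Nat.cast_pow, ZMod.natCast_zmod_val]
  rw [← key i, ← key j, heq, sub_self]

end Vale.Agent.P337
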