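import Mathlib
import Vale.Agent.Lib.P337.Uni.Defs

/-!
P337, univariate criterion: the Newman type quotient `u = a pm / (a pm + a' pp)` approximates a
step function.
-/

namespace Vale.Agent.P337

namespace UP

variable (U : UP)

theorem pm_nonneg (x : ℝ) : 0 ≤ U.pm x :=
  Finset.prod_nonneg fun _ _ => (even_two_mul _).pow_nonneg _

theorem pp_nonneg (x : ℝ) : 0 ≤ U.pp x :=
  Finset.prod_nonneg fun _ _ => (even_two_mul _).pow_nonneg _

theorem pp_neg {R : Type} [CommRing R] (x : R) : U.pp (-x) = U.pm x := by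
  unfold pp pm
  refine Finset.prod_congr rfl fun i _ => ?_
  have h : -x + 2 ^ i = -(x - 2 ^ i) := by ring
  rw [h, (even_two_mul _).neg_pow]

theorem newman_pp_pos {x : ℝ} (hx : 0 ≤ x) : 0 < U.pp x := by
  unfold pp
  refine Finset.prod_pos fun i _ => pow_pos ?_ _
  have : (0 : ℝ) < 2 ^ i := by positivity
  linarith

theorem newman_pm_pos {x : ℝ} (hx : x ≤ 0) : 0 < U.pm x := by
  rw [← pp_neg]
  exact U.newman_pp_pos (by linarith)

theorem den_pos (ha : 0 < U.a) (ha' : 0 < U.a') (x : ℝ) :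
    0 < (U.a : ℝ) * U.pm x + (U.a' : ℝ) * U.pp x := by
  have h1 : (0 : ℝ) < U.a := by exact_mod_cast ha
  have h2 : (0 : ℝ) < U.a' := by exact_mod_cast ha'
  rcases le_total 0 x with hx | hx
  · exact add_pos_of_nonneg_of_pos (mul_nonneg h1.le (U.pm_nonneg x))
      (mul_pos h2 (U.newman_pp_pos hx))
  · exact add_pos_of_pos_of_nonneg (mul_pos h1 (U.newman_pm_pos hx))
      (mul_nonneg h2.le (U.pp_nonneg x))

theorem newman_factor {x y : ℝ} (hx : 0 ≤ x) (hy : 0 ≤ y) (k : ℕ) :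
    (x - y) ^ (2 * k) ≤ (x + y) ^ (2 * k) := by
  rw [pow_mul, pow_mul]
  refine pow_le_pow_left₀ (sq_nonneg _) ?_ k
  nlinarith [mul_nonneg hx hy]

theorem newman_pm_le_pp {x : ℝ} (hx : 0 ≤ x) : U.pm x ≤ U.pp x := by
  unfold pm pp
  refine Finset.prod_le_prod (fun i _ => (even_two_mul _).pow_nonneg _) fun i _ => ?_
  exact newman_factor hx (by positivity) _

/-- `u` is at least `a / (a + a')` for nonpositive arguments -/
theorem u_ge_of_nonpos (ha : 0 < U.a) (ha' : 0 < U.a') {x : ℝ} (hx : x ≤ 0) :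
    (U.a : ℝ) / (U.a + U.a') ≤
      (U.a : ℝ) * U.pm x / ((U.a : ℝ) * U.pm x + (U.a' : ℝ) * U.pp x) := by
  have h1 : (0 : ℝ) < U.a := by exact_mod_cast ha
  have h2 : (0 : ℝ) < U.a' := by exact_mod_cast ha'
  rw [div_le_div_iff₀ (by linarith) (U.den_pos ha ha' x)]
  have h3 : U.pp x ≤ U.pm x := by
    have h4 := U.newman_pm_le_pp (x := -x) (by linarith)
    rw [pp_neg] at h4
    have h5 := U.pp_neg (-x)
    rw [neg_neg] at h5
    rw [h5]
    exact h4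
  have h4 := mul_le_mul_of_nonneg_left h3 (mul_pos h1 h2).le
  nlinarith

theorem newman_exists {x : ℝ} (hx : 1 ≤ x) (M : ℕ) (hx' : x ≤ 2 ^ (M + 1)) :
    ∃ i ≤ M, (2 : ℝ) ^ i ≤ x ∧ x ≤ 2 ^ (i + 1) := by
  induction M with
  | zero => exact ⟨0, le_rfl, by simpa using hx, hx'⟩
  | succ M ih =>
    rcases le_total x (2 ^ (M + 1)) with h | h
    · obtain ⟨i, hi, h1, h2⟩ := ih h
      exact ⟨i, by omega, h1, h2⟩
    · exact ⟨M + 1, le_rfl, h, hx'⟩

theorem newman_pm_le {x : ℝ} (hx : 1 ≤ x) (hx' : x ≤ 2 ^ (U.M + 1)) :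
    U.pm x ≤ (1 / 9 : ℝ) ^ U.kap * U.pp x := by
  obtain ⟨i, hi, h1, h2⟩ := newman_exists hx U.M hx'
  have hmem : i ∈ Finset.range (U.M + 1) := Finset.mem_range.2 (by omega)
  have h3 : (1 / 9 : ℝ) ^ U.kap * U.pp x = ∏ j ∈ Finset.range (U.M + 1),
      ((if j = i then (1 / 9 : ℝ) ^ U.kap else 1) * (x + 2 ^ j) ^ (2 * U.kap)) := by
    rw [Finset.prod_mul_distrib, Finset.prod_ite_eq' (Finset.range (U.M + 1)) i, if_pos hmem]
    rfl
  rw [h3]
  unfold pm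
  refine Finset.prod_le_prod (fun j _ => (even_two_mul _).pow_nonneg _) fun j _ => ?_
  by_cases hj : j = i
  · rw [if_pos hj, hj, pow_mul, pow_mul, ← mul_pow]
    refine pow_le_pow_left₀ (sq_nonneg _) ?_ _
    rw [pow_succ] at h2
    have h4 : (0 : ℝ) < 2 ^ i := by positivity
    nlinarith
  · rw [if_neg hj, one_mul]
    exact newman_factor (by linarith) (by positivity) _

/-- `u` is small for `1 ≤ x ≤ 2 ^ (M + 1)` -/
theorem u_le_of_pos (ha : 0 < U.a) (haa : U.a ≤ U.a') {x : ℝ} (hx : 1 ≤ x)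
    (hx' : x ≤ 2 ^ (U.M + 1)) :
    (U.a : ℝ) * U.pm x / ((U.a : ℝ) * U.pm x + (U.a' : ℝ) * U.pp x) ≤ (1 / 9 : ℝ) ^ U.kap := by
  have h1 : (0 : ℝ) < U.a := by exact_mod_cast ha
  have h2 : (U.a : ℝ) ≤ U.a' := by exact_mod_cast haa
  rw [div_le_iff₀ (U.den_pos ha (lt_of_lt_of_le ha haa) x)]
  have h3 := U.newman_pm_le hx hx'
  have h4 := U.pm_nonneg x
  have h5 := U.pp_nonneg x
  have h6 : (0 : ℝ) ≤ (1 / 9 : ℝ) ^ U.kap := by positivity
  calc (U.a : ℝ) * U.pm x ≤ U.a * ((1 / 9 : ℝ) ^ U.kap * U.pp x) :=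
        mul_le_mul_of_nonneg_left h3 h1.le
    _ = (1 / 9 : ℝ) ^ U.kap * (U.a * U.pp x) := by ring
    _ ≤ (1 / 9 : ℝ) ^ U.kap * (U.a * U.pm x + U.a' * U.pp x) := by
        refine mul_le_mul_of_nonneg_left ?_ h6
        have h7 := mul_le_mul_of_nonneg_right h2 h5
        have h8 := mul_nonneg h1.le h4
        linarith

/-- `u` is close to `1` for `-2 ^ (M + 1) ≤ x ≤ -1` -/
theorem one_sub_u_le_of_neg (ha : 0 < U.a) (haa : U.a ≤ U.a') (haa' : U.a' ≤ 2 * U.a) {x : ℝ}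
    (hx : x ≤ -1) (hx' : -2 ^ (U.M + 1) ≤ x) :
    1 - (U.a : ℝ) * U.pm x / ((U.a : ℝ) * U.pm x + (U.a' : ℝ) * U.pp x) ≤
      2 * (1 / 9 : ℝ) ^ U.kap := by
  have h1 : (0 : ℝ) < U.a := by exact_mod_cast ha
  have h2 : (U.a' : ℝ) ≤ 2 * U.a := by exact_mod_cast haa'
  have hd := U.den_pos ha (lt_of_lt_of_le ha haa) x
  have h3 := U.newman_pm_le (x := -x) (by linarith) (by linarith)
  rw [pp_neg] at h3
  have h5 := U.pp_neg (-x)
  rw [neg_neg] at h5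
  rw [← h5] at h3
  rw [one_sub_div hd.ne', div_le_iff₀ hd]
  have h4 := U.pm_nonneg x
  have h6 := U.pp_nonneg x
  have h7 : (0 : ℝ) ≤ (1 / 9 : ℝ) ^ U.kap := by positivity
  calc (U.a : ℝ) * U.pm x + U.a' * U.pp x - U.a * U.pm x = U.a' * U.pp x := by ring
    _ ≤ (2 * U.a) * ((1 / 9 : ℝ) ^ U.kap * U.pm x) := by
        refine mul_le_mul h2 h3 h6 (by linarith)
    _ = 2 * (1 / 9 : ℝ) ^ U.kap * (U.a * U.pm x) := by ring
    _ ≤ 2 * (1 / 9 : ℝ) ^ U.kap * (U.a * U.pm x + U.a' * U.pp x) := by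
        refine mul_le_mul_of_nonneg_left ?_ (by positivity)
        have h8 : (0 : ℝ) ≤ U.a' * U.pp x := mul_nonneg (Nat.cast_nonneg _) h6
        linarith

theorem u_zero (ha : 0 < U.a) (ha' : 0 < U.a') :
    (U.a : ℝ) * U.pm (0 : ℝ) / ((U.a : ℝ) * U.pm 0 + (U.a' : ℝ) * U.pp 0) =
      (U.a : ℝ) / (U.a + U.a') := by
  have h1 : (0 : ℝ) < U.a := by exact_mod_cast ha
  have h2 : (0 : ℝ) < U.a' := by exact_mod_cast ha'
  have h3 := U.pp_neg (0 : ℝ)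
  rw [neg_zero] at h3
  have h4 := U.newman_pm_pos (x := 0) le_rfl
  rw [h3, ← add_mul, mul_div_mul_right _ _ h4.ne']

end UP

end Vale.Agent.P337
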