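import Mathlib

/-!
P337, univariate criterion: lower bounds for nonzero values at algebraic integers.
-/

namespace Vale.Agent.P337

open Polynomial

theorem rootGap_prod_le {F : ℂ → ℂ} {Y : ℝ} (hY : 1 ≤ Y) (T : Multiset ℂ)
    (h : ∀ z ∈ T, ‖F z‖ ≤ Y) : (T.map fun z => ‖F z‖).prod ≤ Y ^ T.card := by
  induction T using Multiset.induction_on with
  | empty => simp
  | cons a T ih =>
    rw [Multiset.map_cons, Multiset.prod_cons, Multiset.card_cons, pow_succ, mul_comm]
    refine mul_le_mul (ih fun z hz => h z (Multiset.mem_cons_of_mem hz))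
      (h a (Multiset.mem_cons_self a T)) (norm_nonneg _) (by positivity)

/-- the characteristic polynomial of `h` on the roots of `f` is an integer polynomial -/
theorem rootGap_charpoly {f h : ℤ[X]} (hf : f.Monic) :
    ∃ P : ℤ[X], P.map (Int.castRingHom ℂ) =
      ((f.map (Int.castRingHom ℂ)).roots.map
        fun z => X - C ((h.map (Int.castRingHom ℂ)).eval z)).prod := by
  set ι : ℤ →+* ℂ := Int.castRingHom ℂ with hι
  set f' : ℤ[X][X] := f.map C with hf'
  set g' : ℤ[X][X] := C X - h.map C with hg'
  refine ⟨resultant f' g' f.natDegree h.natDegree, ?_⟩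
  refine Polynomial.funext fun t => ?_
  -- evaluate at `t`
  set φ : ℤ[X] →+* ℂ := eval₂RingHom ι t with hφ
  have h1 : φ (resultant f' g' f.natDegree h.natDegree) =
      resultant (f'.map φ) (g'.map φ) f.natDegree h.natDegree := by
    rw [resultant_map_map]
  have h2 : f'.map φ = f.map ι := by
    rw [hf', Polynomial.map_map]
    congr 1
    ext x
    simp
  have h3 : g'.map φ = C t - h.map ι := by
    rw [hg', Polynomial.map_sub, Polynomial.map_map, Polynomial.map_C]
    congr 1
    · simp [hφ]
    · congr 1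
      ext x
      simp
  have h4 : (Polynomial.map ι (resultant f' g' f.natDegree h.natDegree)).eval t =
      φ (resultant f' g' f.natDegree h.natDegree) := by
    rw [hφ, coe_eval₂RingHom, eval_map]
  have hmon : (f.map ι).Monic := hf.map _
  have hdeg : (f.map ι).natDegree = f.natDegree := hf.natDegree_map _
  rw [h4, h1, h2, h3, ← hdeg, resultant_eq_prod_eval _ _ _ _ (IsAlgClosed.splits _),
    hmon.leadingCoeff, one_pow, one_mul, eval_multiset_prod, Multiset.map_map]
  · congr 1
    refine Multiset.map_congr rfl fun z _ => ?_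
    simp
  · refine (natDegree_sub_le _ _).trans ?_
    rw [natDegree_C]
    simpa using natDegree_map_le

/-- for monic integer `f` and integer `h`, nonzero values of `h` at roots of `f` are not small -/
theorem root_gap {f h : ℤ[X]} (hf : f.Monic) {D : ℕ} (hD : f.natDegree = D) {Y : ℝ} (hY : 1 ≤ Y)
    (hb : ∀ z ∈ (f.map (Int.castRingHom ℂ)).roots, ‖(h.map (Int.castRingHom ℂ)).eval z‖ ≤ Y)
    {z : ℂ} (hz : z ∈ (f.map (Int.castRingHom ℂ)).roots)
    (hne : (h.map (Int.castRingHom ℂ)).eval z ≠ 0) :
    1 ≤ ‖(h.map (Int.castRingHom ℂ)).eval z‖ * Y ^ D := by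
  classical
  obtain ⟨P, hP⟩ := rootGap_charpoly (h := h) hf
  set R : Multiset ℂ := (f.map (Int.castRingHom ℂ)).roots with hR
  set F : ℂ → ℂ := fun z => (h.map (Int.castRingHom ℂ)).eval z with hF
  set S : Multiset ℂ := R.filter fun z => F z ≠ 0 with hS
  set S0 : Multiset ℂ := R.filter fun z => ¬ F z ≠ 0 with hS0
  have hsplit : S + S0 = R := Multiset.filter_add_not _ _
  have hprod : (R.map fun z => X - C (F z)).prod =
      (S.map fun z => X - C (F z)).prod * X ^ S0.card := by
    rw [← hsplit, Multiset.map_add, Multiset.prod_add]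
    congr 1
    rw [← Multiset.prod_replicate]
    congr 1
    refine Multiset.eq_replicate.2 ⟨by simp, fun b hb => ?_⟩
    obtain ⟨w, hw, rfl⟩ := Multiset.mem_map.1 hb
    have : F w = 0 := by
      have := (Multiset.mem_filter.1 hw).2
      exact not_not.1 this
    simp [this]
  have hcoeff : ((P.coeff S0.card : ℤ) : ℂ) = (S.map fun z => -F z).prod := by
    have h1 : (P.map (Int.castRingHom ℂ)).coeff S0.card = ((P.coeff S0.card : ℤ) : ℂ) := by
      rw [coeff_map]
      rfl
    have h2 : ((S.map fun z => X - C (F z)).prod * X ^ S0.card).coeff S0.card =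
        ((S.map fun z => X - C (F z)).prod).coeff 0 := by
      have := coeff_mul_X_pow ((S.map fun z => X - C (F z)).prod) S0.card 0
      simpa using this
    rw [← h1, hP, hprod, h2, coeff_zero_eq_eval_zero, eval_multiset_prod, Multiset.map_map]
    congr 1
    refine Multiset.map_congr rfl fun z _ => ?_
    simp
  have hne0 : (S.map fun z => -F z).prod ≠ 0 := by
    intro h0
    obtain ⟨w, hw, hw0⟩ := Multiset.mem_map.1 (Multiset.prod_eq_zero_iff.1 h0)
    exact (Multiset.mem_filter.1 hw).2 (neg_eq_zero.1 hw0)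
  have hint : P.coeff S0.card ≠ 0 := by
    intro h0
    rw [h0] at hcoeff
    exact hne0 (by rw [← hcoeff]; simp)
  have hnorm1 : 1 ≤ ‖((P.coeff S0.card : ℤ) : ℂ)‖ := by
    rw [Complex.norm_intCast]
    have := Int.one_le_abs hint
    exact_mod_cast this
  have hnorm2 : ‖(S.map fun z => -F z).prod‖ = (S.map fun z => ‖F z‖).prod := by
    have := map_multiset_prod (normHom : ℂ →*₀ ℝ) (S.map fun z => -F z)
    rw [Multiset.map_map] at this
    simpa using this
  have hzS : z ∈ S := Multiset.mem_filter.2 ⟨hz, hne⟩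
  rw [hcoeff, hnorm2, ← Multiset.cons_erase hzS, Multiset.map_cons, Multiset.prod_cons] at hnorm1
  refine hnorm1.trans (mul_le_mul_of_nonneg_left ?_ (norm_nonneg _))
  have hle : ((S.erase z).map fun z => ‖F z‖).prod ≤ Y ^ (S.erase z).card := by
    refine rootGap_prod_le hY _ fun w hw => ?_
    exact hb w (Multiset.mem_of_mem_filter (Multiset.mem_of_mem_erase hw))
  refine hle.trans (pow_le_pow_right₀ hY ?_)
  calc (S.erase z).card ≤ S.card := Multiset.card_erase_le
    _ ≤ R.card := Multiset.card_le_card (Multiset.filter_le _ _)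
    _ ≤ (f.map (Int.castRingHom ℂ)).natDegree := card_roots' _
    _ ≤ D := by rw [← hD]; exact natDegree_map_le

end Vale.Agent.P337
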