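import Mathlib

/-!
P337, univariate criterion: Thom's lemma.
-/

namespace Vale.Agent.P337

open Polynomial

private theorem thom_mono (p : ℝ[X]) {x y : ℝ}
    (h : ∀ t ∈ Set.Icc x y, 0 < (derivative p).eval t) :
    StrictMonoOn (fun t => p.eval t) (Set.Icc x y) := by
  refine strictMonoOn_of_deriv_pos (convex_Icc x y) p.continuous.continuousOn fun t ht => ?_
  rw [Polynomial.deriv]
  exact h t (interior_subset ht)

private theorem thom_anti (p : ℝ[X]) {x y : ℝ}
    (h : ∀ t ∈ Set.Icc x y, (derivative p).eval t < 0) :
    StrictAntiOn (fun t => p.eval t) (Set.Icc x y) := by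
  refine strictAntiOn_of_deriv_neg (convex_Icc x y) p.continuous.continuousOn fun t ht => ?_
  rw [Polynomial.deriv]
  exact h t (interior_subset ht)

/-- equal signs at the two ends, and strictly monotone: no zero -/
private theorem thom_step (p : ℝ[X]) {x y : ℝ} (hxy : x < y)
    (hs : SignType.sign (p.eval x) = SignType.sign (p.eval y))
    (h : (∀ t ∈ Set.Icc x y, 0 < (derivative p).eval t) ∨
      ∀ t ∈ Set.Icc x y, (derivative p).eval t < 0) :
    (∀ t ∈ Set.Icc x y, 0 < p.eval t) ∨ ∀ t ∈ Set.Icc x y, p.eval t < 0 := by
  have hx : x ∈ Set.Icc x y := ⟨le_rfl, hxy.le⟩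
  have hy : y ∈ Set.Icc x y := ⟨hxy.le, le_rfl⟩
  rcases h with h | h
  · have hm := thom_mono p h
    have hlt : p.eval x < p.eval y := hm hx hy hxy
    rcases lt_trichotomy (p.eval x) 0 with h1 | h1 | h1
    · right
      have h2 : p.eval y < 0 := by
        rw [sign_neg h1] at hs
        exact sign_eq_neg_one_iff.mp hs.symm
      intro t ht
      exact (hm.monotoneOn ht hy ht.2).trans_lt h2
    · exfalso
      rw [h1, sign_zero] at hs
      have := sign_eq_zero_iff.mp hs.symm
      linarith
    · left
      intro t ht
      exact h1.trans_le (hm.monotoneOn hx ht ht.1)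
  · have hm := thom_anti p h
    have hlt : p.eval y < p.eval x := hm hx hy hxy
    rcases lt_trichotomy (p.eval x) 0 with h1 | h1 | h1
    · right
      intro t ht
      exact (hm.antitoneOn hx ht ht.1).trans_lt h1
    · exfalso
      rw [h1, sign_zero] at hs
      have := sign_eq_zero_iff.mp hs.symm
      linarith
    · left
      have h2 : 0 < p.eval y := by
        rw [sign_pos h1] at hs
        exact sign_eq_one_iff.mp hs.symm
      intro t ht
      exact h2.trans_le (hm.antitoneOn ht hy ht.2)

private theorem thom_lt {f : ℝ[X]} {D : ℕ} (hf : f.natDegree = D) (hD : 1 ≤ D) {x y : ℝ}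
    (hxy : x < y) (hx : f.eval x = 0) (hy : f.eval y = 0) :
    ∃ k, 1 ≤ k ∧ k < D ∧ SignType.sign ((derivative^[k] f).eval x) ≠
      SignType.sign ((derivative^[k] f).eval y) := by
  by_contra hcon
  push Not at hcon
  have hP : ∀ j < D, (∀ t ∈ Set.Icc x y, 0 < (derivative^[D - j] f).eval t) ∨
      ∀ t ∈ Set.Icc x y, (derivative^[D - j] f).eval t < 0 := by
    intro j
    induction j with
    | zero =>
      intro _
      rw [Nat.sub_zero]
      have hf0 : f ≠ 0 := by
        rintro rfl
        rw [Polynomial.natDegree_zero] at hf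
        omega
      have hconst : derivative^[D] f = C ((D.factorial : ℝ) * f.leadingCoeff) := by
        have h1 : (derivative^[D] f).natDegree ≤ 0 := by
          refine (Polynomial.natDegree_iterate_derivative f D).trans ?_
          omega
        rw [Polynomial.eq_C_of_natDegree_le_zero h1]
        congr 1
        rw [Polynomial.coeff_iterate_derivative, zero_add, Nat.descFactorial_self, nsmul_eq_mul,
          Polynomial.leadingCoeff, hf]
      have hne : (D.factorial : ℝ) * f.leadingCoeff ≠ 0 :=
        mul_ne_zero (Nat.cast_ne_zero.mpr D.factorial_ne_zero)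
          (Polynomial.leadingCoeff_ne_zero.mpr hf0)
      rcases lt_or_gt_of_ne hne with h | h
      · right
        intro t _
        rw [hconst, eval_C]
        exact h
      · left
        intro t _
        rw [hconst, eval_C]
        exact h
    | succ j ih =>
      intro hj
      have h1 := ih (by omega)
      have e : D - j = (D - (j + 1)) + 1 := by omega
      rw [e] at h1
      simp only [Function.iterate_succ_apply'] at h1
      exact thom_step _ hxy (hcon _ (by omega) (by omega)) h1
  have h1 := hP (D - 1) (by omega)
  have e : D - (D - 1) = 1 := by omega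
  rw [e] at h1
  simp only [Function.iterate_one] at h1
  have hxm : x ∈ Set.Icc x y := ⟨le_rfl, hxy.le⟩
  have hym : y ∈ Set.Icc x y := ⟨hxy.le, le_rfl⟩
  rcases h1 with h | h
  · have := thom_mono f h hxm hym hxy
    simp only [hx, hy] at this
    exact lt_irrefl _ this
  · have := thom_anti f h hxm hym hxy
    simp only [hx, hy] at this
    exact lt_irrefl _ this

/-- Thom's lemma: distinct real roots are distinguished by the signs of the derivatives -/
theorem thom {f : ℝ[X]} {D : ℕ} (hf : f.natDegree = D) (hD : 1 ≤ D) {x y : ℝ} (hxy : x ≠ y)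
    (hx : f.eval x = 0) (hy : f.eval y = 0) :
    ∃ k, 1 ≤ k ∧ k < D ∧ SignType.sign ((derivative^[k] f).eval x) ≠
      SignType.sign ((derivative^[k] f).eval y) := by
  rcases lt_or_gt_of_ne hxy with h | h
  · exact thom_lt hf hD h hx hy
  · obtain ⟨k, h1, h2, h3⟩ := thom_lt hf hD h hy hx
    exact ⟨k, h1, h2, h3.symm⟩

end Vale.Agent.P337
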