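import Mathlib
import Vale.Agent.Lib.P337.Uni.Newman
import Vale.Agent.Lib.P337.Uni.Thom
import Vale.Agent.Lib.P337.Uni.Hash
import Vale.Agent.Lib.P337.Uni.RootGap
import Vale.Agent.Lib.P337.Uni.DerBound

/-!
P337, univariate criterion: the values at the real roots.
-/

namespace Vale.Agent.P337

open Polynomial

namespace UP

variable (U : UP)

/-- the step function quotient -/
noncomputable def rrq (t : ℝ) : ℝ :=
  (U.a : ℝ) * U.pm t / ((U.a : ℝ) * U.pm t + (U.a' : ℝ) * U.pp t)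

/-- denominators at a number -/
noncomputable def rrB (f : ℝ[X]) (x : ℝ) (j : ℕ) : ℝ :=
  (U.a : ℝ) * U.pm ((U.y f j).eval x) + (U.a' : ℝ) * U.pp ((U.y f j).eval x)

theorem rrB_pos (ha : 0 < U.a) (ha' : 0 < U.a') (f : ℝ[X]) (x : ℝ) (j : ℕ) :
    0 < U.rrB f x j := U.den_pos ha ha' _

theorem rr_eval_PP (ha : 0 < U.a) (ha' : 0 < U.a') (f : ℝ[X]) (x : ℝ) :
    (U.PP f).eval x = (∏ j ∈ Finset.range U.D, U.rrB f x j) *
      ((U.Z : ℝ) * (∑ k ∈ Finset.range U.D, (U.w k : ℝ) * U.rrq ((U.y f k).eval x)) - U.Th) := by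
  have h1 : (U.PP f).eval x =
      (∑ k ∈ Finset.range U.D, ((U.Z * U.w k * U.a : ℕ) : ℝ) * U.pm ((U.y f k).eval x) *
        ∏ j ∈ Finset.range U.D, if j = k then 1 else U.rrB f x j) -
      (U.Th : ℝ) * ∏ j ∈ Finset.range U.D, U.rrB f x j := U.eval_PP f x
  rw [h1, mul_sub, Finset.mul_sum, Finset.mul_sum, mul_comm (U.Th : ℝ)]
  congr 1
  apply Finset.sum_congr rfl
  intro k hk
  have h2 : U.rrB f x k * ∏ j ∈ Finset.range U.D, (if j = k then 1 else U.rrB f x j) =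
      ∏ j ∈ Finset.range U.D, U.rrB f x j := by
    have h3 : U.rrB f x k = ∏ j ∈ Finset.range U.D, (if j = k then U.rrB f x j else 1) := by
      rw [Finset.prod_ite_eq' (Finset.range U.D) k, if_pos hk]
    rw [h3, ← Finset.prod_mul_distrib]
    apply Finset.prod_congr rfl
    intro j _
    split_ifs
    · rw [mul_one]
    · rw [one_mul]
  have h4 := (U.rrB_pos ha ha' f x k).ne'
  have h5 : U.rrq ((U.y f k).eval x) = (U.a : ℝ) * U.pm ((U.y f k).eval x) / U.rrB f x k := rfl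
  rw [← h2, h5]
  push_cast
  field_simp

theorem rr_prod_pos (ha : 0 < U.a) (ha' : 0 < U.a') (f : ℝ[X]) (x : ℝ) :
    0 < ∏ j ∈ Finset.range U.D, U.rrB f x j :=
  Finset.prod_pos fun j _ => U.rrB_pos ha ha' f x j

theorem rrq_nonneg (ha : 0 < U.a) (ha' : 0 < U.a') (t : ℝ) : 0 ≤ U.rrq t := by
  unfold rrq
  exact div_nonneg (mul_nonneg (Nat.cast_nonneg _) (U.pm_nonneg t)) (U.den_pos ha ha' t).le

theorem rrq_le_one (ha : 0 < U.a) (ha' : 0 < U.a') (t : ℝ) : U.rrq t ≤ 1 := by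
  unfold rrq
  rw [div_le_one (U.den_pos ha ha' t)]
  have := mul_nonneg (Nat.cast_nonneg (α := ℝ) U.a') (U.pp_nonneg t)
  linarith

/-- `t` matches the sign code `v` -/
def rrOK (v : ℕ) (t : ℝ) : Prop :=
  (v = 0 ∧ 1 ≤ t ∧ t ≤ 2 ^ (U.M + 1)) ∨ (v = 1 ∧ t = 0) ∨
    (v = 2 ∧ t ≤ -1 ∧ -2 ^ (U.M + 1) ≤ t)

theorem rrq_near {δ : ℝ} (ha : 0 < U.a) (haa : U.a ≤ U.a') (haa' : U.a' ≤ 2 * U.a)
    (h1 : 2 * (1 / 9 : ℝ) ^ U.kap ≤ δ)
    (h2 : ((U.a' : ℝ) - U.a) / (2 * (U.a + U.a')) ≤ δ) {t : ℝ} {v : ℕ} (h : U.rrOK v t) :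
    |U.rrq t - (v : ℝ) / 2| ≤ δ := by
  have ha' : 0 < U.a' := lt_of_lt_of_le ha haa
  have hp : (0 : ℝ) ≤ (1 / 9 : ℝ) ^ U.kap := by positivity
  rcases h with ⟨hv, h3, h4⟩ | ⟨hv, h3⟩ | ⟨hv, h3, h4⟩
  · have h5 : U.rrq t ≤ (1 / 9 : ℝ) ^ U.kap := U.u_le_of_pos ha haa h3 h4
    have h6 := U.rrq_nonneg ha ha' t
    rw [hv, Nat.cast_zero, zero_div, sub_zero, abs_of_nonneg h6]
    linarith
  · have h5 : U.rrq 0 = (U.a : ℝ) / (U.a + U.a') := U.u_zero ha ha'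
    have haR : (0 : ℝ) < U.a := by exact_mod_cast ha
    have haR' : (0 : ℝ) < U.a' := by exact_mod_cast ha'
    have haaR : (U.a : ℝ) ≤ U.a' := by exact_mod_cast haa
    rw [hv, h3, h5, Nat.cast_one]
    have h6 : (U.a : ℝ) / (U.a + U.a') - 1 / 2 = -(((U.a' : ℝ) - U.a) / (2 * (U.a + U.a'))) := by
      field_simp
      ring
    rw [h6, abs_neg, abs_of_nonneg]
    · exact h2
    · apply div_nonneg <;> linarith
  · have h5 : 1 - U.rrq t ≤ 2 * (1 / 9 : ℝ) ^ U.kap := U.one_sub_u_le_of_neg ha haa haa' h3 h4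
    have h6 := U.rrq_le_one ha ha' t
    have h7 : U.rrq t - ((2 : ℕ) : ℝ) / 2 = -(1 - U.rrq t) := by
      push_cast
      ring
    rw [hv, h7, abs_neg, abs_of_nonneg (by linarith)]
    linarith

theorem rr_sum_near {δ Wt : ℝ} (ha : 0 < U.a) (haa : U.a ≤ U.a') (haa' : U.a' ≤ 2 * U.a)
    (h1 : 2 * (1 / 9 : ℝ) ^ U.kap ≤ δ)
    (h2 : ((U.a' : ℝ) - U.a) / (2 * (U.a + U.a')) ≤ δ)
    (hW : ∑ k ∈ Finset.range U.D, (U.w k : ℝ) ≤ Wt) (hδ : 0 ≤ δ) (hδW : δ * Wt ≤ 1 / 32)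
    (t : ℕ → ℝ) (V : ℕ → ℕ) (h : ∀ k < U.D, U.rrOK (V k) (t k)) :
    |∑ k ∈ Finset.range U.D, (U.w k : ℝ) * U.rrq (t k) -
      (∑ k ∈ Finset.range U.D, ((U.w k * V k : ℕ) : ℝ)) / 2| ≤ 1 / 32 := by
  have h3 : ∑ k ∈ Finset.range U.D, (U.w k : ℝ) * U.rrq (t k) -
      (∑ k ∈ Finset.range U.D, ((U.w k * V k : ℕ) : ℝ)) / 2 =
      ∑ k ∈ Finset.range U.D, (U.w k : ℝ) * (U.rrq (t k) - (V k : ℝ) / 2) := by
    rw [Finset.sum_div, ← Finset.sum_sub_distrib]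
    apply Finset.sum_congr rfl
    intro k _
    push_cast
    ring
  rw [h3]
  refine (Finset.abs_sum_le_sum_abs _ _).trans ?_
  have h4 : ∀ k ∈ Finset.range U.D, |(U.w k : ℝ) * (U.rrq (t k) - (V k : ℝ) / 2)| ≤
      (U.w k : ℝ) * δ := by
    intro k hk
    rw [abs_mul, abs_of_nonneg (Nat.cast_nonneg (α := ℝ) (U.w k))]
    exact mul_le_mul_of_nonneg_left
      (U.rrq_near ha haa haa' h1 h2 (h k (Finset.mem_range.mp hk))) (Nat.cast_nonneg _)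
  refine (Finset.sum_le_sum h4).trans ?_
  rw [← Finset.sum_mul, mul_comm]
  exact (mul_le_mul_of_nonneg_left hW hδ).trans hδW

theorem rr_sum_ge (ha : 0 < U.a) (haa : U.a ≤ U.a') (haa' : U.a' ≤ 2 * U.a) (hD : 1 ≤ U.D)
    (t : ℕ → ℝ) (ht : t 0 ≤ 0) :
    (U.w 0 : ℝ) / 3 ≤ ∑ k ∈ Finset.range U.D, (U.w k : ℝ) * U.rrq (t k) := by
  have ha' : 0 < U.a' := lt_of_lt_of_le ha haa
  have h1 : (U.w 0 : ℝ) * U.rrq (t 0) ≤ ∑ k ∈ Finset.range U.D, (U.w k : ℝ) * U.rrq (t k) :=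
    Finset.single_le_sum (f := fun k => (U.w k : ℝ) * U.rrq (t k))
      (fun k _ => mul_nonneg (Nat.cast_nonneg _) (U.rrq_nonneg ha ha' _))
      (Finset.mem_range.mpr (by omega))
  refine le_trans ?_ h1
  have h2 : (U.a : ℝ) / (U.a + U.a') ≤ U.rrq (t 0) := U.u_ge_of_nonpos ha ha' ht
  have haR : (0 : ℝ) < U.a := by exact_mod_cast ha
  have haR' : (0 : ℝ) < U.a' := by exact_mod_cast ha'
  have haaR : (U.a' : ℝ) ≤ 2 * U.a := by exact_mod_cast haa'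
  have h3 : (1 : ℝ) / 3 ≤ (U.a : ℝ) / (U.a + U.a') := by
    rw [div_le_div_iff₀ (by norm_num) (by positivity)]
    linarith
  have h4 : (U.w 0 : ℝ) * (1 / 3) ≤ (U.w 0 : ℝ) * U.rrq (t 0) :=
    mul_le_mul_of_nonneg_left (h3.trans h2) (Nat.cast_nonneg _)
  linarith

end UP

theorem rr_eval_ofReal (h : ℤ[X]) (x : ℝ) :
    (h.map (Int.castRingHom ℂ)).eval (x : ℂ) =
      (((h.map (Int.castRingHom ℝ)).eval x : ℝ) : ℂ) := by
  have h1 : h.map (Int.castRingHom ℂ) = (h.map (Int.castRingHom ℝ)).map Complex.ofRealHom := by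
    rw [Polynomial.map_map]
    congr 1
  rw [h1]
  exact Polynomial.eval_map_apply Complex.ofRealHom x

theorem rr_mem_roots {f : ℤ[X]} (hf : f.Monic) {x : ℝ}
    (hx : (f.map (Int.castRingHom ℝ)).eval x = 0) :
    (x : ℂ) ∈ (f.map (Int.castRingHom ℂ)).roots := by
  rw [Polynomial.mem_roots (hf.map _).ne_zero, Polynomial.IsRoot.def, rr_eval_ofReal, hx,
    Complex.ofReal_zero]

theorem rr_gap {f h : ℤ[X]} (hf : f.Monic) {D : ℕ} (hD : f.natDegree = D) {S M Y : ℕ}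
    (hY : 1 ≤ Y) (hS : Y ^ D ≤ S) (hM : S * Y ≤ 2 ^ (M + 1))
    (hb : ∀ z ∈ (f.map (Int.castRingHom ℂ)).roots, ‖(h.map (Int.castRingHom ℂ)).eval z‖ ≤ Y)
    {x : ℝ} (hx : (f.map (Int.castRingHom ℝ)).eval x = 0)
    (hne : (h.map (Int.castRingHom ℝ)).eval x ≠ 0) :
    1 ≤ (S : ℝ) * |(h.map (Int.castRingHom ℝ)).eval x| ∧
      (S : ℝ) * |(h.map (Int.castRingHom ℝ)).eval x| ≤ 2 ^ (M + 1) := by
  have hmem := rr_mem_roots hf hx
  have hnorm : ‖(h.map (Int.castRingHom ℂ)).eval (x : ℂ)‖ =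
      |(h.map (Int.castRingHom ℝ)).eval x| := by
    rw [rr_eval_ofReal, Complex.norm_real, Real.norm_eq_abs]
  have hYR : (1 : ℝ) ≤ Y := by exact_mod_cast hY
  have h1 := root_gap hf hD hYR hb hmem (by
    rw [rr_eval_ofReal]
    exact_mod_cast hne)
  have h2 := hb _ hmem
  rw [hnorm] at h1 h2
  constructor
  · have h3 : ((Y : ℝ)) ^ D ≤ S := by exact_mod_cast hS
    refine h1.trans ?_
    rw [mul_comm]
    exact mul_le_mul_of_nonneg_right h3 (abs_nonneg _)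
  · have h3 : (S : ℝ) * Y ≤ 2 ^ (M + 1) := by exact_mod_cast hM
    exact (mul_le_mul_of_nonneg_left h2 (Nat.cast_nonneg _)).trans h3

/-- the sign code of a real number -/
noncomputable def rrCode (t : ℝ) : ℕ := if 0 < t then 0 else if t = 0 then 1 else 2

theorem rrCode_le (t : ℝ) : rrCode t ≤ 2 := by
  unfold rrCode
  split_ifs <;> omega

theorem rrCode_of_pos {t : ℝ} (h : 0 < t) : rrCode t = 0 := if_pos h

theorem rrCode_of_zero {t : ℝ} (h : t = 0) : rrCode t = 1 := by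
  unfold rrCode
  rw [if_neg (by rw [h]; exact lt_irrefl 0), if_pos h]

theorem rrCode_of_neg {t : ℝ} (h : t < 0) : rrCode t = 2 := by
  unfold rrCode
  rw [if_neg (not_lt.mpr h.le), if_neg h.ne]

theorem rrCode_eq {s t : ℝ} (h : rrCode s = rrCode t) : SignType.sign s = SignType.sign t := by
  rcases lt_trichotomy s 0 with hs | hs | hs <;> rcases lt_trichotomy t 0 with ht | ht | ht
  · rw [sign_neg hs, sign_neg ht]
  · rw [rrCode_of_neg hs, rrCode_of_zero ht] at h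
    omega
  · rw [rrCode_of_neg hs, rrCode_of_pos ht] at h
    omega
  · rw [rrCode_of_zero hs, rrCode_of_neg ht] at h
    omega
  · rw [hs, ht]
  · rw [rrCode_of_zero hs, rrCode_of_pos ht] at h
    omega
  · rw [rrCode_of_pos hs, rrCode_of_neg ht] at h
    omega
  · rw [rrCode_of_pos hs, rrCode_of_zero ht] at h
    omega
  · rw [sign_pos hs, sign_pos ht]

theorem rr_ok {U : UP} {D : ℕ} {f h : ℤ[X]} (hf : f.Monic) (hD : f.natDegree = D) {Y : ℕ}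
    (hY : 1 ≤ Y) (hS : Y ^ D ≤ U.S) (hM : U.S * Y ≤ 2 ^ (U.M + 1))
    (hb : ∀ z ∈ (f.map (Int.castRingHom ℂ)).roots, ‖(h.map (Int.castRingHom ℂ)).eval z‖ ≤ Y)
    {x : ℝ} (hx : (f.map (Int.castRingHom ℝ)).eval x = 0) :
    U.rrOK (rrCode ((h.map (Int.castRingHom ℝ)).eval x))
      ((U.S : ℝ) * (h.map (Int.castRingHom ℝ)).eval x) := by
  obtain ⟨t, ht⟩ : ∃ t : ℝ, t = (h.map (Int.castRingHom ℝ)).eval x := ⟨_, rfl⟩
  have h1 := rr_gap hf hD hY hS hM hb hx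
  rw [← ht] at h1 ⊢
  unfold UP.rrOK rrCode
  rcases lt_trichotomy t 0 with h2 | h2 | h2
  · right; right
    obtain ⟨h3, h4⟩ := h1 h2.ne
    rw [abs_of_neg h2] at h3 h4
    refine ⟨?_, by linarith, by linarith⟩
    rw [if_neg (not_lt.mpr h2.le), if_neg h2.ne]
  · right; left
    refine ⟨?_, ?_⟩
    · rw [if_neg (by rw [h2]; exact lt_irrefl 0), if_pos h2]
    · rw [h2, mul_zero]
  · left
    obtain ⟨h3, h4⟩ := h1 h2.ne'
    rw [abs_of_pos h2] at h3 h4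
    exact ⟨if_pos h2, h3, h4⟩

theorem rr_bound_der {f : ℤ[X]} (hf : f.Monic) {D : ℕ} (hfD : f.natDegree = D) {u : ℕ} (C : ℕ)
    (hu : ∀ z ∈ (f.map (Int.castRingHom ℂ)).roots, ‖z‖ ≤ u) (k : ℕ) :
    ∀ z ∈ (f.map (Int.castRingHom ℂ)).roots,
      ‖((derivative^[k] f).map (Int.castRingHom ℂ)).eval z‖ ≤ (thY D C u : ℕ) := by
  intro z hz
  rw [← Polynomial.iterate_derivative_map]
  have h1 := derivative_bound (hf.map (Int.castRingHom ℂ))
    (by rw [hf.natDegree_map, hfD]) (Nat.cast_nonneg u) hu k (hu z hz)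
  refine h1.trans ?_
  unfold thY
  push_cast
  have : (0 : ℝ) ≤ C := Nat.cast_nonneg _
  have : (0 : ℝ) ≤ u := Nat.cast_nonneg _
  linarith

theorem rr_bound_zero {f : ℤ[X]} {D u : ℕ} (C : ℕ)
    (hu : ∀ z ∈ (f.map (Int.castRingHom ℂ)).roots, ‖z‖ ≤ u) :
    ∀ z ∈ (f.map (Int.castRingHom ℂ)).roots,
      ‖((Polynomial.C (C : ℤ) - X).map (Int.castRingHom ℂ)).eval z‖ ≤ (thY D C u : ℕ) := by
  intro z hz
  have h1 : ((Polynomial.C (C : ℤ) - X).map (Int.castRingHom ℂ)).eval z = (C : ℂ) - z := by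
    simp
  rw [h1]
  have h2 := norm_sub_le (C : ℂ) z
  have h3 := hu z hz
  rw [Complex.norm_natCast] at h2
  unfold thY
  push_cast
  have : (0 : ℝ) ≤ ((D : ℝ) * (2 * u + 1)) ^ D := by positivity
  linarith

theorem rr_thY_pos {D C u : ℕ} (hD : 1 ≤ D) : 1 ≤ thY D C u := by
  unfold thY
  have : 0 < (D * (2 * u + 1)) ^ D := by positivity
  omega

/-- the numeric facts about the weights -/
theorem rr_weights {D C S M kap a a' Z Th w0 rho q : ℕ} (hq : q ≤ 2 * D ^ 3 + 6) (hq0 : 0 < q) :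
    ∑ k ∈ Finset.range D, ((UP.w ⟨D, C, S, M, kap, a, a', Z, Th, w0, rho, q⟩ k : ℕ) : ℝ) ≤
      ((D * (2 * D ^ 3 + 6) + w0 : ℕ) : ℝ) := by
  have h1 : ∑ k ∈ Finset.range D, UP.w ⟨D, C, S, M, kap, a, a', Z, Th, w0, rho, q⟩ k ≤
      D * (2 * D ^ 3 + 6) + w0 := by
    have h2 : ∀ k ∈ Finset.range D, UP.w ⟨D, C, S, M, kap, a, a', Z, Th, w0, rho, q⟩ k ≤
        (2 * D ^ 3 + 6) + (if k = 0 then w0 else 0) := by
      intro k _
      unfold UP.w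
      by_cases hk : k = 0
      · simp [hk]
      · simp only [if_neg hk, if_neg hq0.ne']
        have := Nat.mod_lt (rho ^ k) hq0
        omega
    refine (Finset.sum_le_sum h2).trans ?_
    rw [Finset.sum_add_distrib, Finset.sum_const, Finset.card_range, smul_eq_mul]
    have h3 : ∑ k ∈ Finset.range D, (if k = 0 then w0 else 0) ≤ w0 := by
      rw [Finset.sum_ite_eq' (Finset.range D) 0]
      split_ifs <;> omega
    omega
  exact_mod_cast h1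

theorem rr_weighted {D C S M kap a a' Z Th w0 rho q : ℕ} (hD : 1 ≤ D) (hq0 : 0 < q)
    (v : ℕ → ℕ) :
    ∑ k ∈ Finset.range D, ((UP.w ⟨D, C, S, M, kap, a, a', Z, Th, w0, rho, q⟩ k *
      (if k = 0 then 0 else v k) : ℕ) : ℝ) =
      ((∑ k ∈ Finset.Ico 1 D, (rho ^ k % q) * v k : ℕ) : ℝ) := by
  rw [← Nat.cast_sum]
  congr 1
  rw [Finset.range_eq_Ico, Finset.sum_eq_sum_Ico_succ_bot (by omega : 0 < D)]
  simp only [if_true, mul_zero, zero_add]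
  apply Finset.sum_congr rfl
  intro k hk
  have hk0 : k ≠ 0 := by
    have := (Finset.mem_Ico.mp hk).1
    omega
  unfold UP.w
  simp only [if_neg hk0, if_neg hq0.ne']

theorem rr_W_le {D q rho : ℕ} (hD : 1 ≤ D) (hq : q ≤ 2 * D ^ 3 + 6) (hq0 : 0 < q) (v : ℕ → ℕ)
    (hv : ∀ k, v k ≤ 2) :
    ∑ k ∈ Finset.Ico 1 D, (rho ^ k % q) * v k ≤ D * ((2 * D ^ 3 + 6) * 2) := by
  have h1 : ∀ k ∈ Finset.Ico 1 D, (rho ^ k % q) * v k ≤ (2 * D ^ 3 + 6) * 2 := by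
    intro k _
    exact Nat.mul_le_mul ((Nat.mod_lt _ hq0).le.trans hq) (hv k)
  refine (Finset.sum_le_card_nsmul _ _ _ h1).trans ?_
  rw [Nat.card_Ico, smul_eq_mul]
  exact Nat.mul_le_mul_right _ (by omega)

theorem rr_delta1 {kap Wt : ℕ} (h0 : 1 ≤ Wt) (hkap : 64 * Wt ≤ 2 ^ kap) :
    2 * (1 / 9 : ℝ) ^ kap ≤ 1 / (32 * Wt) := by
  have hWtR : (1 : ℝ) ≤ Wt := by exact_mod_cast h0
  have h1 : (1 / 9 : ℝ) ^ kap ≤ (1 / 2 : ℝ) ^ kap := by
    apply pow_le_pow_left₀ (by norm_num) (by norm_num)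
  have h2 : (64 * Wt : ℝ) ≤ 2 ^ kap := by exact_mod_cast hkap
  have h3 : (1 / 2 : ℝ) ^ kap ≤ 1 / (64 * Wt) := by
    rw [div_pow, one_pow]
    apply one_div_le_one_div_of_le (by positivity) h2
  have h4 : 2 * (1 / (64 * (Wt : ℝ))) = 1 / (32 * Wt) := by
    field_simp
    norm_num
  rw [← h4]
  linarith

theorem rr_delta2 {a a' D Wt : ℕ} (h0 : 1 ≤ Wt) (ha : 32 * (D ^ 2 + 1) * Wt ≤ a) (ha1 : a ≤ a')
    (ha2 : a' ≤ a + D ^ 2) : ((a' : ℝ) - a) / (2 * (a + a')) ≤ 1 / (32 * Wt) := by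
  have hWtR : (1 : ℝ) ≤ Wt := by exact_mod_cast h0
  have h1 : (a' : ℝ) ≤ a + D ^ 2 := by exact_mod_cast ha2
  have h2 : (32 * ((D : ℝ) ^ 2 + 1) * Wt) ≤ a := by exact_mod_cast ha
  have h3 : (a : ℝ) ≤ a' := by exact_mod_cast ha1
  have h4 : (0 : ℝ) < a := by
    have : (0 : ℝ) < 32 * ((D : ℝ) ^ 2 + 1) * Wt := by positivity
    linarith
  rw [div_le_div_iff₀ (by positivity) (by positivity)]
  have h5 : ((a' : ℝ) - a) * (32 * Wt) ≤ (D : ℝ) ^ 2 * (32 * Wt) := by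
    apply mul_le_mul_of_nonneg_right (by linarith) (by positivity)
  have h6 : 32 * ((D : ℝ) ^ 2 + 1) * Wt = (D : ℝ) ^ 2 * (32 * Wt) + 32 * Wt := by ring
  have h7 : (0 : ℝ) ≤ 32 * Wt := by positivity
  linarith

theorem rr_num_neg {D Th W s : ℝ} (hD : 0 ≤ D) (h1 : s - W / 2 ≤ 1 / 32)
    (h2 : 4 * (D + 2) * W + (D + 2) ≤ Th) : 8 * (D + 2) * s - Th < 0 := by
  have h3 : 8 * (D + 2) * s ≤ 8 * (D + 2) * (W / 2 + 1 / 32) :=
    mul_le_mul_of_nonneg_left (by linarith) (by linarith)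
  have h4 : 8 * (D + 2) * (W / 2 + 1 / 32) = 4 * (D + 2) * W + (D + 2) / 4 := by ring
  linarith

theorem rr_num_pos {D Th W W' s : ℝ} (hD : 0 ≤ D) (h1 : -(1 / 32) ≤ s - W' / 2)
    (h2 : Th ≤ 4 * (D + 2) * W + (D + 2) + 2 * (D + 2)) (h3 : W + 1 ≤ W') :
    0 < 8 * (D + 2) * s - Th := by
  have h4 : 8 * (D + 2) * ((W + 1) / 2 - 1 / 32) ≤ 8 * (D + 2) * s :=
    mul_le_mul_of_nonneg_left (by linarith) (by linarith)
  have h5 : 8 * (D + 2) * ((W + 1) / 2 - 1 / 32) =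
    4 * (D + 2) * W + 4 * (D + 2) - (D + 2) / 4 := by ring
  linarith

theorem rr_T0 {D Wm w0 Z : ℕ} (hw0 : w0 = 6 * D * (D ^ 3 + 3) + 4) (hZ : Z = 8 * (D + 2))
    (hW : Wm ≤ D * ((2 * D ^ 3 + 6) * 2)) :
    3 * (4 * (D + 2) * Wm + (D + 2) + D + 2 + D + 2) < Z * w0 := by
  rw [hZ, hw0]
  have h1 : 3 * (4 * (D + 2) * Wm + (D + 2) + D + 2 + D + 2) = (D + 2) * (12 * Wm + 9) := by
    ring
  have h2 : 8 * (D + 2) * (6 * D * (D ^ 3 + 3) + 4) = (D + 2) * (48 * (D * (D ^ 3 + 3)) + 32) := by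
    ring
  rw [h1, h2]
  apply Nat.mul_lt_mul_of_pos_left _ (by omega)
  have h3 : 12 * Wm ≤ 48 * (D * (D ^ 3 + 3)) := by
    calc 12 * Wm ≤ 12 * (D * ((2 * D ^ 3 + 6) * 2)) := Nat.mul_le_mul_left _ hW
      _ = 48 * (D * (D ^ 3 + 3)) := by ring
  omega

/-- the values below `C` -/
theorem rr_below {f : ℤ[X]} (hf : f.Monic) {D : ℕ} (hD : 1 ≤ D) (hfD : f.natDegree = D)
    {u C S M kap a a' w0 Z Th rho q Wt : ℕ}
    (hu : ∀ z ∈ (f.map (Int.castRingHom ℂ)).roots, ‖z‖ ≤ u)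
    (hS : thY D C u ^ D ≤ S) (hM : S * thY D C u ≤ 2 ^ (M + 1))
    (hq : q ≤ 2 * D ^ 3 + 6) (hq0 : 0 < q) (hWt : Wt = D * (2 * D ^ 3 + 6) + w0)
    (hWt1 : 1 ≤ Wt) (hkap : 64 * Wt ≤ 2 ^ kap) (ha : 32 * (D ^ 2 + 1) * Wt ≤ a)
    (ha1 : a ≤ a') (ha2 : a' ≤ a + D ^ 2) (ha3 : a' ≤ 2 * a) (ha0 : 0 < a)
    {U : UP} (hU : U = ⟨D, C, S, M, kap, a, a', Z, Th, w0, rho, q⟩) {F : ℝ[X]}
    (hF : F = f.map (Int.castRingHom ℝ)) {x : ℝ} (hx : F.eval x = 0) (hxC : x < C) :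
    |∑ k ∈ Finset.range U.D, (U.w k : ℝ) * U.rrq ((U.y F k).eval x) -
      ((∑ k ∈ Finset.Ico 1 D, (rho ^ k % q) * rrCode ((derivative^[k] F).eval x) : ℕ) : ℝ) / 2| ≤
        1 / 32 := by
  have hUD : U.D = D := by rw [hU]
  have hUa : U.a = a := by rw [hU]
  have hUa' : U.a' = a' := by rw [hU]
  have hUS : U.S = S := by rw [hU]
  have hUM : U.M = M := by rw [hU]
  have hUC : U.C = C := by rw [hU]
  have hUkap : U.kap = kap := by rw [hU]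
  have hWtR : (1 : ℝ) ≤ Wt := by exact_mod_cast hWt1
  have hδ0 : (0 : ℝ) ≤ 1 / (32 * Wt) := by positivity
  have hδW : (1 / (32 * Wt) : ℝ) * Wt ≤ 1 / 32 := by
    apply le_of_eq
    field_simp
  have hk1 : 2 * (1 / 9 : ℝ) ^ U.kap ≤ 1 / (32 * Wt) := by
    rw [hUkap]
    exact rr_delta1 hWt1 hkap
  have hk2 : ((U.a' : ℝ) - U.a) / (2 * (U.a + U.a')) ≤ 1 / (32 * Wt) := by
    rw [hUa, hUa']
    exact rr_delta2 hWt1 ha ha1 ha2
  have hWs : ∑ k ∈ Finset.range U.D, (U.w k : ℝ) ≤ Wt := by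
    have := rr_weights (D := D) (C := C) (S := S) (M := M) (kap := kap) (a := a) (a' := a')
      (Z := Z) (Th := Th) (w0 := w0) (rho := rho) hq hq0
    rw [← hU, ← hWt] at this
    rw [hUD]
    exact this
  have hfx : (f.map (Int.castRingHom ℝ)).eval x = 0 := by rw [← hF]; exact hx
  have hok : ∀ k < U.D, U.rrOK (if k = 0 then 0 else rrCode ((derivative^[k] F).eval x))
      ((U.y F k).eval x) := by
    intro k _
    by_cases hk : k = 0
    · have h1 := rr_ok (U := U) hf hfD (rr_thY_pos hD) (by rw [hUS]; exact hS)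
        (by rw [hUS, hUM]; exact hM) (rr_bound_zero (D := D) C hu) hfx
      have h2 : ((Polynomial.C (C : ℤ) - X).map (Int.castRingHom ℝ)).eval x = (C : ℝ) - x := by
        simp
      rw [h2] at h1
      have h3 : rrCode ((C : ℝ) - x) = 0 := rrCode_of_pos (by linarith)
      have h4 : (U.y F k).eval x = (U.S : ℝ) * ((C : ℝ) - x) := by
        unfold UP.y
        rw [if_pos hk, hUC]
        simp
      rw [if_pos hk, h4, ← h3]
      exact h1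
    · have h1 := rr_ok (U := U) hf hfD (rr_thY_pos hD) (by rw [hUS]; exact hS)
        (by rw [hUS, hUM]; exact hM) (rr_bound_der hf hfD C hu k) hfx
      rw [← Polynomial.iterate_derivative_map, ← hF] at h1
      have h4 : (U.y F k).eval x = (U.S : ℝ) * (derivative^[k] F).eval x := by
        unfold UP.y
        rw [if_neg hk, Polynomial.eval_mul, Polynomial.eval_C]
      rw [if_neg hk, h4]
      exact h1
  have h5 := U.rr_sum_near (by rw [hUa]; exact ha0) (by rw [hUa, hUa']; exact ha1)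
    (by rw [hUa, hUa']; exact ha3) hk1 hk2 hWs hδ0 hδW (fun k => (U.y F k).eval x)
    (fun k => if k = 0 then 0 else rrCode ((derivative^[k] F).eval x)) hok
  have h6 := rr_weighted (D := D) (C := C) (S := S) (M := M) (kap := kap) (a := a) (a' := a')
    (Z := Z) (Th := Th) (w0 := w0) (rho := rho) hD hq0
    (fun k => rrCode ((derivative^[k] F).eval x))
  rw [← hU] at h6
  rw [hUD] at h5 ⊢
  rw [h6] at h5
  exact h5

/-- the values at the real roots: exactly one is negative -/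
theorem uni_real {f : ℤ[X]} (hf : f.Monic) {D : ℕ} (hD : 1 ≤ D) (hfD : f.natDegree = D)
    {u C S M kap a w0 Z : ℕ} (hu : ∀ z ∈ (f.map (Int.castRingHom ℂ)).roots, ‖z‖ ≤ u)
    (hS : thY D C u ^ D ≤ S) (hM : S * thY D C u ≤ 2 ^ (M + 1))
    (hw0 : w0 = 6 * D * (D ^ 3 + 3) + 4) (hZ : Z = 8 * (D + 2))
    (hkap : 64 * (D * (2 * D ^ 3 + 6) + w0) ≤ 2 ^ kap)
    (ha : 32 * (D ^ 2 + 1) * (D * (2 * D ^ 3 + 6) + w0) ≤ a) {x0 : ℝ}
    (hx0 : (f.map (Int.castRingHom ℝ)).eval x0 = 0) (hx0C : x0 < C) :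
    ∃ (q rho T0 : ℕ) (xm : ℝ), q.Prime ∧ q ≤ 2 * D ^ 3 + 6 ∧ rho < q ∧
      3 * (T0 + D + 2 + D + 2) < Z * w0 ∧ (f.map (Int.castRingHom ℝ)).eval xm = 0 ∧
      ∀ (a' Th : ℕ), a ≤ a' → a' ≤ a + D ^ 2 → T0 ≤ Th → Th ≤ T0 + 2 * (D + 2) →
        ((UP.PP ⟨D, C, S, M, kap, a, a', Z, Th, w0, rho, q⟩
          (f.map (Int.castRingHom ℝ))).eval xm < 0 ∧
        ∀ x : ℝ, (f.map (Int.castRingHom ℝ)).eval x = 0 → x ≠ xm →
          0 < (UP.PP ⟨D, C, S, M, kap, a, a', Z, Th, w0, rho, q⟩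
            (f.map (Int.castRingHom ℝ))).eval x) := by
  obtain ⟨F, hF⟩ : ∃ F : ℝ[X], F = f.map (Int.castRingHom ℝ) := ⟨_, rfl⟩
  have hFm : F.Monic := by rw [hF]; exact hf.map _
  have hFD : F.natDegree = D := by rw [hF, hf.natDegree_map, hfD]
  obtain ⟨q, hq, hq1, hq2⟩ := Nat.exists_prime_lt_and_le_two_mul (D ^ 3 + 3) (by omega)
  have hq2' : q ≤ 2 * D ^ 3 + 6 := by omega
  have hq0 : 0 < q := hq.pos
  -- the sign codes
  obtain ⟨v, hv⟩ : ∃ v : ℝ → ℕ → ℕ, v = fun x k => rrCode ((derivative^[k] F).eval x) := ⟨_, rfl⟩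
  have hv2 : ∀ x k, v x k ≤ 2 := by
    intro x k
    rw [hv]
    exact rrCode_le _
  have hcard : F.roots.toFinset.card ≤ D := by
    rw [← hFD]
    exact (Multiset.toFinset_card_le _).trans (Polynomial.card_roots' F)
  have hmem : ∀ x, x ∈ F.roots.toFinset ↔ F.eval x = 0 := by
    intro x
    rw [Multiset.mem_toFinset, Polynomial.mem_roots hFm.ne_zero, Polynomial.IsRoot.def]
  obtain ⟨rho, hrho, hhash⟩ := exists_hash hq (by omega) F.roots.toFinset hcard (by omega) v hv2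
    (by
      intro x hx y hy hxy
      obtain ⟨k, hk1, hk2, hk3⟩ := thom hFD hD hxy ((hmem x).mp hx) ((hmem y).mp hy)
      refine ⟨k, hk1, hk2, ?_⟩
      intro h
      apply hk3
      rw [hv] at h
      exact rrCode_eq h)
  obtain ⟨W, hW⟩ : ∃ W : ℝ → ℕ, W = fun x => ∑ k ∈ Finset.Ico 1 D, (rho ^ k % q) * v x k :=
    ⟨_, rfl⟩
  -- the minimal root
  obtain ⟨xm, hxm, hmin⟩ := Finset.exists_min_image
    (F.roots.toFinset.filter fun x => x < (C : ℝ)) W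
    ⟨x0, by rw [Finset.mem_filter, hmem, hF]; exact ⟨hx0, hx0C⟩⟩
  rw [Finset.mem_filter, hmem] at hxm
  obtain ⟨hxm0, hxmC⟩ := hxm
  have hWle : W xm ≤ D * ((2 * D ^ 3 + 6) * 2) := by
    rw [hW]
    exact rr_W_le hD hq2' hq0 _ (hv2 xm)
  have hT3 := rr_T0 hw0 hZ hWle
  refine ⟨q, rho, 4 * (D + 2) * W xm + (D + 2), xm, hq, hq2', hrho, hT3,
    by rw [← hF]; exact hxm0, ?_⟩
  intro a' Th ha1 ha2 hT1 hT2
  rw [← hF]
  obtain ⟨U, hU⟩ : ∃ U : UP, U = ⟨D, C, S, M, kap, a, a', Z, Th, w0, rho, q⟩ := ⟨_, rfl⟩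
  have hUD : U.D = D := by rw [hU]
  have hUa : U.a = a := by rw [hU]
  have hUa' : U.a' = a' := by rw [hU]
  have hUZ : U.Z = Z := by rw [hU]
  have hUTh : U.Th = Th := by rw [hU]
  have hUC : U.C = C := by rw [hU]
  have hUw0 : U.w 0 = w0 := by rw [hU]; rfl
  obtain ⟨Wt, hWt⟩ : ∃ Wt : ℕ, Wt = D * (2 * D ^ 3 + 6) + w0 := ⟨_, rfl⟩
  have hWt1 : 1 ≤ Wt := by
    rw [hWt, hw0]
    omega
  rw [← hWt] at hkap ha
  have haD : D ^ 2 + 1 ≤ a := by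
    calc D ^ 2 + 1 = (D ^ 2 + 1) * 1 := (mul_one _).symm
      _ ≤ 32 * (D ^ 2 + 1) * Wt := Nat.mul_le_mul (by omega) hWt1
      _ ≤ a := ha
  have ha0 : 0 < a := by omega
  have haa' : a' ≤ 2 * a := by omega
  have hUa0 : 0 < U.a := by rw [hUa]; exact ha0
  have hUa'0 : 0 < U.a' := by rw [hUa']; omega
  have hkey : ∀ x : ℝ, F.eval x = 0 → x < C →
      |∑ k ∈ Finset.range U.D, (U.w k : ℝ) * U.rrq ((U.y F k).eval x) - (W x : ℝ) / 2| ≤
        1 / 32 := by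
    intro x hx hxC
    have := rr_below hf hD hfD hu hS hM hq2' hq0 hWt hWt1 hkap ha ha1 ha2 haa' ha0 hU hF hx hxC
    rw [hW, hv]
    exact this
  have hZR : (U.Z : ℝ) = 8 * ((D : ℝ) + 2) := by
    rw [hUZ, hZ]
    push_cast
    ring
  have hT1R : 4 * ((D : ℝ) + 2) * (W xm : ℝ) + (D + 2) ≤ U.Th := by
    rw [hUTh]
    exact_mod_cast hT1
  have hT2R : (U.Th : ℝ) ≤ 4 * ((D : ℝ) + 2) * (W xm : ℝ) + (D + 2) + 2 * (D + 2) := by
    rw [hUTh]
    exact_mod_cast hT2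
  have hDR : (0 : ℝ) ≤ D := Nat.cast_nonneg _
  rw [← hU]
  constructor
  · rw [U.rr_eval_PP hUa0 hUa'0]
    apply mul_neg_of_pos_of_neg (U.rr_prod_pos hUa0 hUa'0 F xm)
    rw [hZR]
    exact rr_num_neg hDR (abs_le.mp (hkey xm hxm0 hxmC)).2 hT1R
  · intro x hx hxne
    rw [U.rr_eval_PP hUa0 hUa'0]
    apply mul_pos (U.rr_prod_pos hUa0 hUa'0 F x)
    by_cases hxC : x < C
    · have h2 : W xm ≤ W x := hmin x (by rw [Finset.mem_filter, hmem]; exact ⟨hx, hxC⟩)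
      have h3 : W x ≠ W xm := by
        have := hhash x ((hmem x).mpr hx) xm ((hmem xm).mpr hxm0) hxne
        rw [hW]
        exact this
      have h4 : W xm + 1 ≤ W x := by omega
      have h5 : (W xm : ℝ) + 1 ≤ W x := by exact_mod_cast h4
      rw [hZR]
      exact rr_num_pos hDR (abs_le.mp (hkey x hx hxC)).1 hT2R h5
    · have h1 := U.rr_sum_ge hUa0 (by rw [hUa, hUa']; exact ha1) (by rw [hUa, hUa']; exact haa')
        (by rw [hUD]; exact hD) (fun k => (U.y F k).eval x) (by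
          unfold UP.y
          simp only [if_true, Polynomial.eval_mul, Polynomial.eval_C, Polynomial.eval_sub,
            Polynomial.eval_X]
          rw [hUC]
          apply mul_nonpos_of_nonneg_of_nonpos (Nat.cast_nonneg _)
          linarith [not_lt.mp hxC])
      have h2 : 3 * Th < Z * w0 := by omega
      have h3 : 3 * (U.Th : ℝ) < U.Z * w0 := by
        rw [hUTh, hUZ]
        exact_mod_cast h2
      rw [hUw0] at h1
      have h4 : (U.Z : ℝ) * ((w0 : ℝ) / 3) ≤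
          (U.Z : ℝ) * ∑ k ∈ Finset.range U.D, (U.w k : ℝ) * U.rrq ((U.y F k).eval x) :=
        mul_le_mul_of_nonneg_left h1 (Nat.cast_nonneg _)
      linarith

end Vale.Agent.P337
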