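import Mathlib
import Vale.Agent.Lib.P337.Uni.RealRoots
import Vale.Agent.Lib.P337.Uni.Nonzero

/-!
P337, univariate criterion: completeness.
-/

namespace Vale.Agent.P337

open Polynomial

/-- values of an integer polynomial at conjugate numbers -/
theorem ucm_eval_conj (P : ℤ[X]) (z : ℂ) :
    (P.map (Int.castRingHom ℂ)).eval (starRingEnd ℂ z) =
      starRingEnd ℂ ((P.map (Int.castRingHom ℂ)).eval z) := by
  rw [eval_map, eval_map, hom_eval₂]
  congr 1
  exact Subsingleton.elim _ _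

/-- values of an integer polynomial at real numbers -/
theorem ucm_eval_real (P : ℤ[X]) (x : ℝ) :
    (P.map (Int.castRingHom ℂ)).eval (x : ℂ) =
      (((P.map (Int.castRingHom ℝ)).eval x : ℝ) : ℂ) := by
  have h : (((P.map (Int.castRingHom ℝ)).eval x : ℝ) : ℂ) =
      Complex.ofRealHom ((P.map (Int.castRingHom ℝ)).eval x) := rfl
  rw [h, eval_map, eval_map, hom_eval₂,
    Subsingleton.elim (Complex.ofRealHom.comp (Int.castRingHom ℝ)) (Int.castRingHom ℂ)]
  rfl

/-- The product of the values at a finite set of numbers that is closed under conjugation, if exactly one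
real value is negative. -/
theorem ucm_prod_neg (P : ℤ[X]) (s : Finset ℂ) (hconj : ∀ z ∈ s, starRingEnd ℂ z ∈ s) (xm : ℝ)
    (hxm : (xm : ℂ) ∈ s) (hneg : (P.map (Int.castRingHom ℝ)).eval xm < 0)
    (hpos : ∀ x : ℝ, (x : ℂ) ∈ s → x ≠ xm → 0 < (P.map (Int.castRingHom ℝ)).eval x)
    (hnz : ∀ z ∈ s, (P.map (Int.castRingHom ℂ)).eval z ≠ 0) :
    ∃ r : ℝ, r < 0 ∧ ∏ z ∈ s, (P.map (Int.castRingHom ℂ)).eval z = (r : ℂ) := by
  classical
  set g : ℂ → ℂ := fun z => (P.map (Int.castRingHom ℂ)).eval z with hg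
  set A := s.filter fun z => 0 < z.im with hA
  -- the real roots
  have hR : ∏ z ∈ s.filter (fun z => z.im = 0), g z =
      ((∏ z ∈ s.filter (fun z => z.im = 0), (P.map (Int.castRingHom ℝ)).eval z.re : ℝ) : ℂ) := by
    rw [Complex.ofReal_prod]
    refine Finset.prod_congr rfl fun z hz => ?_
    rw [Finset.mem_filter] at hz
    have h1 : (z.re : ℂ) = z := by
      apply Complex.ext
      · simp
      · simp [hz.2]
    rw [← ucm_eval_real P z.re, h1]
  have hRn : ∏ z ∈ s.filter (fun z => z.im = 0), (P.map (Int.castRingHom ℝ)).eval z.re < 0 := by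
    have h1 : (xm : ℂ) ∈ s.filter (fun z => z.im = 0) := by
      rw [Finset.mem_filter]
      exact ⟨hxm, Complex.ofReal_im _⟩
    rw [← Finset.mul_prod_erase _ _ h1]
    refine mul_neg_of_neg_of_pos ?_ (Finset.prod_pos fun z hz => ?_)
    · rw [Complex.ofReal_re]
      exact hneg
    · rw [Finset.mem_erase, Finset.mem_filter] at hz
      have h2 : (z.re : ℂ) = z := by
        apply Complex.ext
        · simp
        · simp [hz.2.2]
      refine hpos z.re (by rw [h2]; exact hz.2.1) fun h3 => hz.1 ?_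
      rw [← h2, h3]
  -- the other roots
  have hN : ∏ z ∈ s.filter (fun z => ¬ z.im = 0), g z =
      ((Complex.normSq (∏ z ∈ A, g z) : ℝ) : ℂ) := by
    have h1 : s.filter (fun z => ¬ z.im = 0) =
        A ∪ s.filter (fun z => z.im < 0) := by
      ext z
      simp only [hA, Finset.mem_filter, Finset.mem_union]
      constructor
      · rintro ⟨h1, h2⟩
        rcases lt_or_gt_of_ne h2 with h3 | h3
        · exact Or.inr ⟨h1, h3⟩
        · exact Or.inl ⟨h1, h3⟩
      · rintro (⟨h1, h2⟩ | ⟨h1, h2⟩)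
        · exact ⟨h1, h2.ne'⟩
        · exact ⟨h1, h2.ne⟩
    have h2 : Disjoint A (s.filter fun z => z.im < 0) := by
      rw [Finset.disjoint_left]
      intro z hz hz'
      rw [hA, Finset.mem_filter] at hz
      rw [Finset.mem_filter] at hz'
      linarith [hz.2, hz'.2]
    have h3 : ∏ z ∈ s.filter (fun z => z.im < 0), g z = starRingEnd ℂ (∏ z ∈ A, g z) := by
      rw [map_prod]
      refine Finset.prod_nbij' (fun z => starRingEnd ℂ z) (fun z => starRingEnd ℂ z) ?_ ?_ ?_ ?_ ?_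
      · intro z hz
        rw [Finset.mem_filter] at hz
        rw [hA, Finset.mem_filter]
        refine ⟨hconj z hz.1, ?_⟩
        rw [Complex.conj_im]
        linarith [hz.2]
      · intro z hz
        rw [hA, Finset.mem_filter] at hz
        rw [Finset.mem_filter]
        refine ⟨hconj z hz.1, ?_⟩
        rw [Complex.conj_im]
        linarith [hz.2]
      · intro z _
        exact Complex.conj_conj z
      · intro z _
        exact Complex.conj_conj z
      · intro z _
        rw [hg]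
        simp only
        rw [ucm_eval_conj, Complex.conj_conj]
    rw [h1, Finset.prod_union h2, h3, Complex.mul_conj]
  have hNp : 0 < Complex.normSq (∏ z ∈ A, g z) := by
    rw [Complex.normSq_pos, Finset.prod_ne_zero_iff]
    intro z hz
    rw [hA, Finset.mem_filter] at hz
    exact hnz z hz.1
  refine ⟨_, mul_neg_of_neg_of_pos hRn hNp, ?_⟩
  rw [← Finset.prod_filter_mul_prod_filter_not s (fun z => z.im = 0), hR, hN]
  push_cast
  rfl

/-- completeness -/
theorem uni_complete {f : ℤ[X]} (hf : f.Monic) {D : ℕ} (hD : 1 ≤ D) (hfD : f.natDegree = D)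
    (hnd : (f.map (Int.castRingHom ℂ)).roots.Nodup)
    {u C S M kap a w0 Z : ℕ} (hu : ∀ z ∈ (f.map (Int.castRingHom ℂ)).roots, ‖z‖ ≤ u)
    (hS : thY D C u ^ D ≤ S) (hM : S * thY D C u ≤ 2 ^ (M + 1))
    (hw0 : w0 = 6 * D * (D ^ 3 + 3) + 4) (hZ : Z = 8 * (D + 2))
    (hkap : 64 * (D * (2 * D ^ 3 + 6) + w0) ≤ 2 ^ kap)
    (ha : 32 * (D ^ 2 + 1) * (D * (2 * D ^ 3 + 6) + w0) ≤ a) {x0 : ℝ}
    (hx0 : (f.map (Int.castRingHom ℝ)).eval x0 = 0) (hx0C : x0 < C) :
    ∃ a' Th rho q : ℕ, a ≤ a' ∧ a' ≤ 2 * a ∧ 3 * Th < Z * w0 ∧ rho < q ∧ q ≤ 2 * D ^ 3 + 6 ∧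
      ∀ n : ℤ, (n : ℂ) = ((f.map (Int.castRingHom ℂ)).roots.map fun z =>
        (UP.PP ⟨D, C, S, M, kap, a, a', Z, Th, w0, rho, q⟩
          (f.map (Int.castRingHom ℂ))).eval z).prod → n < 0 := by
  classical
  obtain ⟨q, rho, T0, xm, -, hqb, hrho, hT, hxm, hreal⟩ :=
    uni_real hf hD hfD hu hS hM hw0 hZ hkap ha hx0 hx0C
  have ha0 : D ^ 2 + 1 ≤ a := by
    refine le_trans ?_ ha
    have h1 : 1 ≤ 32 * (D * (2 * D ^ 3 + 6) + w0) := by
      have h2 : 1 ≤ w0 := by omega
      omega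
    calc D ^ 2 + 1 = (D ^ 2 + 1) * 1 := (mul_one _).symm
      _ ≤ (D ^ 2 + 1) * (32 * (D * (2 * D ^ 3 + 6) + w0)) := Nat.mul_le_mul_left _ h1
      _ = _ := by ring
  have hF0 : f.map (Int.castRingHom ℂ) ≠ 0 := (hf.map _).ne_zero
  have hFD : (f.map (Int.castRingHom ℂ)).natDegree = D := by
    rw [hf.natDegree_map]
    exact hfD
  have hcard : (f.map (Int.castRingHom ℂ)).roots.toFinset.card ≤ D := by
    rw [← hFD]
    exact (Multiset.toFinset_card_le _).trans (card_roots' _)
  obtain ⟨a', Th, h1, h2, h3, h4, hnz⟩ :=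
    uni_nonzero hFD C S M kap a Z w0 rho q T0 (by omega) _ hcard
  obtain ⟨hneg, hpos⟩ := hreal a' Th h1 h2 h3 h4
  refine ⟨a', Th, rho, q, h1, by omega, by omega, hrho, hqb, ?_⟩
  intro n hn
  have hmem : ∀ z : ℂ, z ∈ (f.map (Int.castRingHom ℂ)).roots.toFinset ↔
      (f.map (Int.castRingHom ℂ)).eval z = 0 := by
    intro z
    rw [Multiset.mem_toFinset, mem_roots hF0]
    rfl
  obtain ⟨r, hr, hprod⟩ := ucm_prod_neg
    (UP.PP ⟨D, C, S, M, kap, a, a', Z, Th, w0, rho, q⟩ f)
    (f.map (Int.castRingHom ℂ)).roots.toFinset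
    (by
      intro z hz
      rw [hmem] at hz ⊢
      rw [ucm_eval_conj, hz, map_zero])
    xm
    (by rw [hmem, ucm_eval_real, hxm, Complex.ofReal_zero])
    (by rw [UP.PP_map]; exact hneg)
    (by
      intro x hx hne
      rw [hmem, ucm_eval_real, Complex.ofReal_eq_zero] at hx
      rw [UP.PP_map]
      exact hpos x hx hne)
    (by
      intro z hz
      rw [UP.PP_map]
      exact hnz z hz)
  have h5 : (n : ℂ) = (r : ℂ) := by
    rw [hn, ← hprod]
    have h6 : (f.map (Int.castRingHom ℂ)).roots.toFinset.val = (f.map (Int.castRingHom ℂ)).roots := by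
      rw [Multiset.toFinset_val]
      exact hnd.dedup
    unfold Finset.prod
    rw [h6, UP.PP_map]
  have h7 : (n : ℝ) = r := by
    apply Complex.ofReal_injective
    rw [← h5]
    simp
  rw [← h7] at hr
  exact_mod_cast hr

end Vale.Agent.P337
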