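import Mathlib
import Vale.Agent.Lib.P337.Uni.Newman

/-!
P337, univariate criterion: soundness.
-/

namespace Vale.Agent.P337

open Polynomial

/-- soundness -/
theorem uni_sound (U : UP) (hD : 1 ≤ U.D) (ha : 0 < U.a) (haa : U.a ≤ U.a') (haa' : U.a' ≤ 2 * U.a)
    (hTh : 3 * U.Th < U.Z * U.w0) (f : ℝ[X]) (x : ℝ) (hx : (U.PP f).eval x < 0) : x < U.C := by
  by_contra hxC
  push Not at hxC
  have ha' : 0 < U.a' := lt_of_lt_of_le ha haa
  have haR : (0 : ℝ) < (U.a : ℝ) := by exact_mod_cast ha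
  have haR' : (0 : ℝ) < (U.a' : ℝ) := by exact_mod_cast ha'
  rw [UP.eval_PP] at hx
  set Bv : ℕ → ℝ := fun j =>
    (U.a : ℝ) * U.pm ((U.y f j).eval x) + (U.a' : ℝ) * U.pp ((U.y f j).eval x) with hBv
  have hB : ∀ j, 0 < Bv j := fun j => U.den_pos ha ha' _
  have hprod : 0 < ∏ j ∈ Finset.range U.D, Bv j := Finset.prod_pos fun j _ => hB j
  have hy0 : (U.y f 0).eval x ≤ 0 := by
    have h1 : (U.y f 0).eval x = (U.S : ℝ) * ((U.C : ℝ) - x) := by
      simp [UP.y]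
    rw [h1]
    exact mul_nonpos_of_nonneg_of_nonpos (Nat.cast_nonneg _) (by linarith)
  have hu0 := U.u_ge_of_nonpos ha ha' hy0
  have hthird : (1 : ℝ) / 3 ≤ (U.a : ℝ) / (U.a + U.a') := by
    rw [div_le_div_iff₀ (by norm_num) (by positivity)]
    have : (U.a' : ℝ) ≤ 2 * U.a := by exact_mod_cast haa'
    linarith
  have hkey : Bv 0 / 3 ≤ (U.a : ℝ) * U.pm ((U.y f 0).eval x) := by
    have h2 : (1 : ℝ) / 3 ≤ (U.a : ℝ) * U.pm ((U.y f 0).eval x) / Bv 0 := hthird.trans hu0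
    rw [le_div_iff₀ (hB 0)] at h2
    linarith
  have h0mem : 0 ∈ Finset.range U.D := Finset.mem_range.mpr hD
  have hterm : ∀ k ∈ Finset.range U.D, 0 ≤ ((U.Z * U.w k * U.a : ℕ) : ℝ) *
      U.pm ((U.y f k).eval x) * ∏ j ∈ Finset.range U.D, if j = k then 1 else Bv j := by
    intro k _
    refine mul_nonneg (mul_nonneg (Nat.cast_nonneg _) (U.pm_nonneg _)) ?_
    refine Finset.prod_nonneg fun j _ => ?_
    split_ifs
    · exact zero_le_one
    · exact (hB j).le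
  have hsum := Finset.single_le_sum hterm h0mem
  have hsplit : ∏ j ∈ Finset.range U.D, Bv j
      = Bv 0 * ∏ j ∈ Finset.range U.D, (if j = 0 then 1 else Bv j) := by
    rw [← Finset.mul_prod_erase _ _ h0mem, ← Finset.mul_prod_erase _
      (fun j => if j = 0 then (1 : ℝ) else Bv j) h0mem]
    simp only [if_true, one_mul]
    congr 1
    refine Finset.prod_congr rfl fun j hj => ?_
    rw [if_neg (Finset.ne_of_mem_erase hj)]
  set P0 : ℝ := ∏ j ∈ Finset.range U.D, (if j = 0 then 1 else Bv j) with hP0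
  have hP0pos : 0 < P0 := by
    refine Finset.prod_pos fun j _ => ?_
    split_ifs
    · exact one_pos
    · exact hB j
  have hw0 : U.w 0 = U.w0 := by simp [UP.w]
  have hfirst : (U.Z : ℝ) * U.w0 * (Bv 0 / 3) * P0 ≤ ((U.Z * U.w 0 * U.a : ℕ) : ℝ) *
      U.pm ((U.y f 0).eval x) * P0 := by
    rw [hw0]
    push_cast
    have h3 : (U.Z : ℝ) * U.w0 * (Bv 0 / 3) ≤
        (U.Z : ℝ) * U.w0 * ((U.a : ℝ) * U.pm ((U.y f 0).eval x)) :=
      mul_le_mul_of_nonneg_left hkey (by positivity)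
    have h4 := mul_le_mul_of_nonneg_right h3 hP0pos.le
    calc _ ≤ _ := h4
      _ = _ := by ring
  have hThR : 3 * (U.Th : ℝ) < (U.Z : ℝ) * U.w0 := by exact_mod_cast hTh
  have hpos : 0 < ((U.Z : ℝ) * U.w0 / 3 - U.Th) * (Bv 0 * P0) := by
    refine mul_pos (by linarith) ?_
    exact mul_pos (hB 0) hP0pos
  rw [hsplit] at hx
  have h5 : (U.Z : ℝ) * U.w0 * (Bv 0 / 3) * P0 - (U.Th : ℝ) * (Bv 0 * P0) =
      ((U.Z : ℝ) * U.w0 / 3 - U.Th) * (Bv 0 * P0) := by ring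
  linarith

end Vale.Agent.P337
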